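import Vale.Agent.P366MM.Defs
import Vale.Agent.P366M.Inv2
import Vale.Agent.P366XR.Defs
import Vale.Agent.P366DV.Defs

/-!
# P366K: variations of the data, the linearised constraints and the multipliers. Statements.
-/

open MeasureTheory Filter Topology Set
open scoped ContDiff
open Vale.Agent.P366

noncomputable section

namespace Vale.Agent.P366K

/-! ### the formulas in a chart -/

namespace C

open Vale.Agent.P366.Stmt Vale.Agent.P366Z
open Vale.Agent.P366Y.C (rc Sy)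
open Vale.Agent.P366XR (cT)
open Vale.Agent.P366P (cd)

variable {n : ℕ}

/-- the inner product of two tensors -/
def pr (g A B : Field n) (x : E n) : ℝ :=
  ∑ i, ∑ j, ∑ k, ∑ l, up g i k x * up g j l x * A x i j * B x k l

/-- the product of two tensors -/
def ml (g A B : Field n) : Field n := fun x i j => ∑ k, ∑ l, A x i k * up g k l x * B x l j

/-- the vector of a covector -/
def rs (g : Field n) (w : Fin n → E n → ℝ) (i : Fin n) (x : E n) : ℝ := ∑ j, up g i j x * w j x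

/-- the linearisation of the energy density -/
def Lmu (g K h k : Field n) (x : E n) : ℝ :=
  (dv g (rs g (mom g h)) x - pr g (rc g) h x) / 2 - tr g K x * pr g K h x +
    pr g (ml g K K) h x - pr g (momT g K) k x

/-- the flux tensor of the linearised momentum density -/
def Wt (g K h k : Field n) : Field n := fun x i j =>
  momT g k x i j + (pr g K h x - pr g (momT g K) h x / 2) * g x i j - tr g K x * h x i j -
    ml g h (momT g K) x i j + tr g h x / 2 * momT g K x i j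

/-- the linearisation of the momentum density -/
def Lmom (g K h k : Field n) (j : Fin n) (x : E n) : ℝ :=
  dvT g (Wt g K h k) j x - tr g h x / 2 * mom g K j x +
    pr g h (fun y a b => cT g (momT g K) j a b y) x / 2

/-- the modified linearisation of the momentum density -/
def Lmo (g K h k : Field n) (j : Fin n) (x : E n) : ℝ :=
  Lmom g K h k j x - (∑ a, h x j a * rs g (mom g K) a x) / 2

/-- the linearisation of the expansion -/
def Lth (g K : Field n) (F : E n → ℝ) (h k : Field n) (x : E n) : ℝ :=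
  deriv (fun t : ℝ => thetaPlus (fun y i j => g y i j + t * h y i j)
    (fun y i j => K y i j + t * k y i j) F x) 0

/-- a smooth family of tensors with value `g` and derivative `h` at `t = 0` -/
structure Fam (G : ℝ → Field n) (g h : Field n) : Prop where
  sm : ∀ i j, ContDiff ℝ ∞ fun p : ℝ × E n => G p.1 p.2 i j
  zero : G 0 = g
  der : ∀ x i j, HasDerivAt (fun t => G t x i j) (h x i j) 0

/-- **LIN**: the linearisation of the constraints along a smooth family -/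
def LIN : Prop := ∀ (n : ℕ) (G Q : ℝ → Field n) (g K h k : Field n) (x : E n), Met g → Sy K →
  Sy h → Sy k → Fam G g h → Fam Q K k →
  HasDerivAt (fun t => mu (G t) (Q t) x) (Lmu g K h k x) 0 ∧
    ∀ j, HasDerivAt (fun t => mom (G t) (Q t) j x) (Lmom g K h k j x) 0

/-- **CONF**: conformal variations -/
def CONF : Prop := ∀ (n : ℕ) (g K : Field n) (u : E n → ℝ) (x : E n), Met g → Sy K → Smooth u →
  Lmu g K (fun y i j => 2 * u y * g y i j) (fun y i j => u y * K y i j) x =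
    -2 * u x * mu g K x - (n - 1) * lap g u x ∧
  (∀ j, Lmo g K (fun y i j => 2 * u y * g y i j) (fun y i j => u y * K y i j) j x =
    -2 * u x * mom g K j x + (n - 1) * ∑ a, K x j a * gr g u a x) ∧
  ∀ F, ContDiffAt ℝ 2 F x → (∃ i, pd i F x ≠ 0) →
    Lth g K F (fun y i j => 2 * u y * g y i j) (fun y i j => u y * K y i j) x =
      (n - 1) * ∑ a, nrm g F a x * pd a u x - u x * thetaPlus g K F x

/-- the Lie derivative of a symmetric tensor -/
def lie (T : Field n) (Y : Fin n → E n → ℝ) : Field n := fun x i j =>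
  ∑ a, (Y a x * pd a (fun y => T y i j) x + T x a j * pd i (Y a) x + T x i a * pd j (Y a) x)

/-- **GD**: variations by diffeomorphisms -/
def GD : Prop := ∀ (n : ℕ) (g K : Field n) (Y : Fin n → E n → ℝ) (x : E n), Met g → Sy K →
  (∀ i, Smooth (Y i)) → Lmu g K (lie g Y) (lie K Y) x = ∑ a, Y a x * pd a (mu g K) x ∧
    ∀ j, Lmom g K (lie g Y) (lie K Y) j x =
      ∑ a, (Y a x * pd a (mom g K j) x + mom g K a x * pd j (Y a) x)

/-- the variation of `K` under a change of the time by `φ` -/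
def kt (g K : Field n) (φ : E n → ℝ) : Field n := fun x i j =>
  hess g φ x i j - φ x * (rc g x i j + tr g K x * K x i j - 2 * ml g K K x i j) +
    φ x * mu g K x / (n - 1) * g x i j

/-- **GT**: variations of the time -/
def GT : Prop := ∀ (n : ℕ) (g K : Field n) (φ : E n → ℝ) (x : E n), 2 ≤ n → Met g → Sy K →
  Smooth φ → Lmu g K (fun y i j => 2 * φ y * K y i j) (kt g K φ) x =
    ∑ a, rs g (mom g K) a x * pd a φ x + dv g (fun a y => φ y * rs g (mom g K) a y) x -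
      φ x * tr g K x * mu g K x ∧
  ∀ j, Lmom g K (fun y i j => 2 * φ y * K y i j) (kt g K φ) j x =
    mu g K x * pd j φ x - φ x * tr g K x * mom g K j x

/-- **COEF**: the coefficients of the linearisation on `(φ H, ψ Q)` -/
def COEF : Prop := ∀ (n : ℕ) (g K H Q : Field n), Met g → Sy K → Sy H → Sy Q →
  ∃ (A B : Fin n → E n → ℝ) (b : E n → ℝ), (∀ a, Smooth (A a)) ∧ (∀ j, Smooth (B j)) ∧ Smooth b ∧
    ∀ (φ ψ : E n → ℝ) (x : E n), Smooth φ → Smooth ψ →
      Lmu g K (fun y i j => φ y * H y i j) (fun y i j => ψ y * Q y i j) x =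
        (∑ a, ∑ c, (∑ i, ∑ j, up g a i x * up g c j x * momT g H x i j) * pd a (pd c φ) x) / 2 +
          ∑ a, A a x * pd a φ x + b x * φ x - ψ x * pr g (momT g K) Q x ∧
      ∀ j, Lmo g K (fun y i j => φ y * H y i j) (fun y i j => ψ y * Q y i j) j x =
        ∑ a, (∑ i, up g i a x * Wt g K H (fun _ _ _ => 0) x i j) * pd a φ x + B j x * φ x +
          ∑ a, (∑ i, up g i a x * momT g Q x i j) * pd a ψ x + ψ x * mom g Q j x

/-- **ADJ**: the adjoint equations -/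
def ADJ : Prop := ∀ (n : ℕ) (g K : Field n) (N : E n → ℝ) (X : Fin n → E n → ℝ) (V : Set (E n)),
  2 ≤ n → Met g → Sy K → IsOpen V → ContDiffOn ℝ ∞ N V → (∀ i, ContDiffOn ℝ ∞ (X i) V) →
  (∀ x ∈ V, N x * mu g K x + ∑ j, X j x * mom g K j x = 0) →
  (∀ h k, Sy h → Sy k → (∃ B ⊆ V, IsCompact B ∧ ∀ x ∉ B, h x = 0 ∧ k x = 0) →
    ∫ x, (N x * Lmu g K h k x + ∑ j, X j x * Lmo g K h k j x) * dens g x = 0) →
  ∀ x ∈ V, P366XR.Kid g K N X x ∧ ∀ i j, P366XR.EE g K N X x i j =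
    ((∑ a, g x i a * X a x) * mom g K j x + (∑ a, g x j a * X a x) * mom g K i x) / 2

end C

/-! ### variations on the manifold -/

open Vale.Agent.P366M
open Vale.Agent.P366.Stmt (E BigO flx omega)
open Vale.Agent.P366MM (sq Lf Ins rq)
open Vale.Agent.P366DV (ms)

variable {n : ℕ} {M : Type}

section L0

variable [Mf0 n M]

/-- the line of tensors -/
def fam (g h : Fld n M) (t : ℝ) : Fld n M := fun x i j => g x i j + t * h x i j

/-- the variation of the energy density -/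
def dmu (g K h k : Fld n M) (x : M) : ℝ := deriv (fun t => mu (fam g h t) (fam K k t) x) 0

/-- the modified variation of the momentum density -/
def dmo (g K h k : Fld n M) (j : Fin n) (x : M) : ℝ :=
  deriv (fun t => mom (fam g h t) (fam K k t) j x) 0 -
    (∑ a, h x j a * ∑ b, up g a b x * mom g K b x) / 2

/-- the variation of the expansion -/
def dth (g K : Fld n M) (F : M → ℝ) (h k : Fld n M) (x : M) : ℝ :=
  deriv (fun t => thetaPlus (fam g h t) (fam K k t) F x) 0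

/-- `μ + J (e)` -/
def en (g K : Fld n M) (x : M) (e : Fin n → ℝ) : ℝ := mu g K x + ∑ j, mom g K j x * e j

/-- the variation of `μ + J (e)` -/
def lin (g K h k : Fld n M) (x : M) (e : Fin n → ℝ) : ℝ :=
  dmu g K h k x + ∑ j, dmo g K h k j x * e j

/-- the variation of the area element of the plane orthogonal to `e` -/
def ar (g h : Fld n M) (x : M) (e : Fin n → ℝ) : ℝ :=
  (tr g h x - ∑ i, ∑ j, h x i j * e i * e j) / 2

/-- `g (Y, e)` -/
def gp (g : Fld n M) (Y : Fin n → M → ℝ) (x : M) (e : Fin n → ℝ) : ℝ :=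
  ∑ i, ∑ j, g x i j * Y i x * e j

/-- smooth symmetric tensors -/
structure Sym (h : Fld n M) : Prop where
  sm : SmT h
  sy : ∀ x i j, h x i j = h x j i

end L0

variable [Mfe n M]

/-- variations which change the energy by `dE` and the momentum by `dP` -/
structure Var0 (h k : Fld n M) (dE : ℝ) (dP : Fin n → ℝ) : Prop where
  sh : Sym h
  sk : Sym k
  dec : ∀ i j a b, BigO (n - 2) (fun y => fe h y i j) ∧
    BigO (n - 1) (Stmt.pd a fun y => fe h y i j) ∧
    BigO n (Stmt.pd b (Stmt.pd a fun y => fe h y i j)) ∧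
    BigO (n - 1) (fun y => fe k y i j) ∧ BigO n (Stmt.pd a fun y => fe k y i j)
  en : Tendsto (flx fun i y => (∑ j, (Stmt.pd j (fun z => fe h z i j) y -
    Stmt.pd i (fun z => fe h z j j) y)) / 2) atTop (𝓝 dE)
  mo : ∀ i, Tendsto (flx fun j y => fe k y i j - if i = j then ∑ a, fe k y a a else 0) atTop
    (𝓝 (dP i))

/-- the weight -/
def wt (ε : ℝ) (x : M) : ℝ := (1 + ‖px x‖ ^ 2) ^ (((n : ℝ) + ε) / 2)

/-- variations whose weighted linearised constraint tends to `l` -/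
structure Var (D : Exterior n M) (ε : ℝ) (h k : Fld n M) (dE : ℝ) (dP : Fin n → ℝ) (l : ℝ) :
    Prop extends Var0 h k dE dP where
  lim : ∀ δ > 0, ∃ R, ∀ x : M, R < ‖px x‖ → ∀ e, sq D.g x e = 1 →
    |wt ε x * lin D.g D.K h k x e - l| ≤ δ

/-- the mass -/
def bm (m : ℝ) (P : Fin n → ℝ) : ℝ := √(m ^ 2 - ∑ i, P i ^ 2)

/-- `(n - 1) ω` times the variation of the mass -/
def dm (m : ℝ) (P : Fin n → ℝ) (dE : ℝ) (dP : Fin n → ℝ) : ℝ :=
  (n - 1) * omega n * ((m * dE - ∑ i, P i * dP i) / bm m P)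

/-- the case of equality; `κ` is the surface gravity -/
structure Eqc (D : Exterior n M) (m : ℝ) (P : Fin n → ℝ) (κ : ℝ) : Prop where
  n3 : 3 ≤ n
  af : D.IsAF
  dec : D.DEC
  mar : ∀ x, D.F x = 0 → thetaPlus D.g D.K D.F x = 0
  en : D.IsEnergy m
  mo : D.IsMomentum P
  κ0 : 0 < κ
  ms : bm m P = ms n κ
  ka : κ * D.Amin.toReal = (n - 2) * omega n * bm m P

/-- **EQK**: the surface gravity exists -/
def EQK : Prop := ∀ (n : ℕ) (M : Type) [Mfe n M] (D : Exterior n M) (m : ℝ) (P : Fin n → ℝ),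
  3 ≤ n → D.IsAF → D.DEC → (∀ x, D.F x = 0 → thetaPlus D.g D.K D.F x = 0) → D.IsEnergy m →
  D.IsMomentum P → (D.Amin.toReal / omega n) ^ (((n : ℝ) - 2) / (n - 1)) / 2 = bm m P →
  ∃ κ, Eqc D m P κ

/-- the calibration of the far region -/
structure Cal (D : Exterior n M) (R1 R2 : ℝ) (Z : Fin n → M → ℝ) : Prop where
  R0 : R0 M + 1 ≤ R1
  R12 : R1 ≤ R2
  pos : ∀ x : M, R1 - 1 ≤ ‖px x‖ → 0 < D.F x
  sm : CV ∞ Z
  col : ∀ x : M, R1 - 1 ≤ ‖px x‖ → ‖px x‖ ≤ R1 → ∀ i, Z i x = nrm D.g rq i x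
  dv0 : ∀ x : M, R1 < ‖px x‖ → 0 ≤ dv D.g Z x
  le1 : ∀ x : M, R1 ≤ ‖px x‖ → sq D.g x (fun i => Z i x) ≤ 1
  half : ∀ x : M, R2 ≤ ‖px x‖ → sq D.g x (fun i => Z i x) ≤ 1 / 4

/-- **CAL**: the calibration exists arbitrarily far out -/
def CAL : Prop := ∀ (n : ℕ) (M : Type) [Mfe n M] (D : Exterior n M) (R : ℝ), 3 ≤ n → D.IsAF →
  ∃ R1 R2 Z, R ≤ R1 ∧ Cal D R1 R2 Z

/-- the test fields of the area -/
structure Tf (R1 : ℝ) (Z Y : Fin n → M → ℝ) : Prop where
  sm : CV ∞ Y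
  far : ∃ a : ℝ, 0 ≤ a ∧ ∀ x : M, R1 ≤ ‖px x‖ → ∀ i, Y i x = a * Z i x

/-- **NI**: no variation improves the inequality -/
def NI : Prop := ∀ (n : ℕ) (M : Type) [Mfe n M] (D : Exterior n M) (m : ℝ) (P : Fin n → ℝ)
  (κ R1 R2 ε χ c s dE : ℝ) (Z Y : Fin n → M → ℝ) (h k : Fld n M) (dP : Fin n → ℝ),
  Eqc D m P κ → Cal D R1 R2 Z → Tf R1 Z Y → Var0 h k dE dP → ε ≤ 1 → 0 < c →
  (∀ x, 0 ≤ D.F x → ∀ e, sq D.g x e = 1 →
    c ≤ wt ε x * (χ * en D.g D.K x e + lin D.g D.K h k x e)) →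
  (∀ x, D.F x = 0 → c ≤ -dth D.g D.K D.F h k x) →
  (∀ x ∈ Ins D R2, ∀ e, sq D.g x e = 1 → c ≤ ar D.g h x e - gp D.g Y x e + s) →
  κ * (Lf D R1 Y - s * D.Amin.toReal) ≤ dm m P dE dP

/-- **REP**: the variations in a chart; they are linear and smooth -/
def REP : Prop := ∀ (n : ℕ) (M : Type) [Mf0 n M] (g K h k : Fld n M) (F : M → ℝ), Met g → Sym K →
  Sym h → Sym k → Smooth F → (∀ e ∈ At M, ∀ y,
    dmu g K h k (e.symm y) = C.Lmu (rep e g) (rep e K) (rep e h) (rep e k) y ∧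
    (∀ j, repC e (dmo g K h k) j y = C.Lmo (rep e g) (rep e K) (rep e h) (rep e k) j y) ∧
    ((∃ i, pd i F (e.symm y) ≠ 0) → dth g K F h k (e.symm y) =
      C.Lth (rep e g) (rep e K) (loc e F) (rep e h) (rep e k) y)) ∧
  Smooth (dmu g K h k) ∧ CC ∞ (dmo g K h k) ∧
  ContinuousOn (dth g K F h k) {x | ∃ i, pd i F x ≠ 0} ∧
  ∀ (h' k' : Fld n M) (a b : ℝ), Sym h' → Sym k' → ∀ x,
    dmu g K (fun y i j => a * h y i j + b * h' y i j) (fun y i j => a * k y i j + b * k' y i j) x =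
      a * dmu g K h k x + b * dmu g K h' k' x ∧
    (∀ j, dmo g K (fun y i j => a * h y i j + b * h' y i j)
      (fun y i j => a * k y i j + b * k' y i j) j x =
        a * dmo g K h k j x + b * dmo g K h' k' j x) ∧
    ((∃ i, pd i F x ≠ 0) → dth g K F (fun y i j => a * h y i j + b * h' y i j)
      (fun y i j => a * k y i j + b * k' y i j) x = a * dth g K F h k x + b * dth g K F h' k' x)

/-- **STR**: a variation which improves the energy condition near infinity -/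
def STR : Prop := ∀ (n : ℕ) (M : Type) [Mfe n M] (D : Exterior n M), 3 ≤ n → D.IsAF →
  ∃ ε, 0 < ε ∧ ε ≤ 1 ∧ ∀ ε', 0 < ε' → ε' ≤ ε → ∃ h k, Var D ε' h k 0 0 1

/-- The multipliers as measures: `α` and `β` live on unit vectors `ν w` at `π w`, `η` on the
boundary; `c = 1` is the normal case. -/
structure Mm (D : Exterior n M) (m : ℝ) (P : Fin n → ℝ) (κ R1 R2 ε : ℝ) (Z : Fin n → M → ℝ)
    {W : Type} [MeasurableSpace W] (π : W → M) (ν : W → Fin n → ℝ) (α β : Measure W)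
    (η : Measure M) (c l : ℝ) : Prop where
  mπ : Measurable π
  unit : ∀ w, sq D.g (π w) (ν w) = 1
  dom : ∀ w, 0 ≤ D.F (π w)
  m1 : ∀ ξ, CC 0 ξ → Measurable fun w => ∑ j, ξ j (π w) * ν w j
  m2 : ∀ T, SmT T → Measurable fun w => sq T (π w) (ν w)
  fα : IsFiniteMeasure α
  fβ : IsFiniteMeasure β
  fη : IsFiniteMeasure η
  sβ : ∀ᵐ w ∂β, ‖px (π w)‖ ≤ R2
  sη : ∀ᵐ x ∂η, D.F x = 0
  c0 : 0 ≤ c
  l0 : 0 ≤ l
  ne : α ≠ 0 ∨ η ≠ 0 ∨ 0 < c ∨ 0 < l
  act : ∀ᵐ w ∂α, en D.g D.K (π w) (ν w) = 0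
  mass : β.real univ = c * (κ * D.Amin.toReal)
  area : ∀ Y, Tf R1 Z Y → c * (κ * Lf D R1 Y) ≤ ∫ w, gp D.g Y (π w) (ν w) ∂β
  id : ∀ h k dE dP l', Var D ε h k dE dP l' →
    ∫ w, wt ε (π w) * lin D.g D.K h k (π w) (ν w) ∂α + l * l' -
      ∫ x, dth D.g D.K D.F h k x ∂η + ∫ w, ar D.g h (π w) (ν w) ∂β = c * dm m P dE dP

/-- **MULT**: the multipliers exist -/
def MULT : Prop := ∀ (n : ℕ) (M : Type) [Mfe n M] (D : Exterior n M) (m : ℝ) (P : Fin n → ℝ)
  (κ R1 R2 ε : ℝ) (Z : Fin n → M → ℝ), Eqc D m P κ → Cal D R1 R2 Z → ε ≤ 1 →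
  ∃ (W : Type) (_ : MeasurableSpace W) (π : W → M) (ν : W → Fin n → ℝ) (α β : Measure W)
    (η : Measure M) (c l : ℝ), Mm D m P κ R1 R2 ε Z π ν α β η c l

/-- the functions `N`, `X` represent the measure `wt ε * α` -/
structure Rp (D : Exterior n M) (ε : ℝ) {W : Type} [MeasurableSpace W] (π : W → M)
    (ν : W → Fin n → ℝ) (α : Measure W) (N : M → ℝ) (X : Fin n → M → ℝ) : Prop where
  lip : ∀ e ∈ At M, LocallyLipschitzOn {y | 0 ≤ D.F (e.symm y)} (loc e N) ∧
    ∀ i, LocallyLipschitzOn {y | 0 ≤ D.F (e.symm y)} (repV e X i)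
  N0 : ∀ x, 0 ≤ D.F x → 0 ≤ N x
  le : ∀ x, 0 ≤ D.F x → sq D.g x (fun i => X i x) ≤ N x ^ 2
  act : ∀ x, 0 ≤ D.F x → N x * mu D.g D.K x + ∑ j, X j x * mom D.g D.K j x = 0
  rep : ∀ (f : M → ℝ) (ξ : Fin n → M → ℝ), Continuous f → CC 0 ξ →
    (∃ C, ∀ x, 0 ≤ D.F x → wt ε x * |f x| ≤ C ∧ wt ε x * covNorm D.g ξ x ≤ C) →
    IntegrableOn (fun x => (N x * f x + ∑ j, X j x * ξ j x) * dens D.g x) {x | 0 ≤ D.F x} ∧
    ∫ w, wt ε (π w) * (f (π w) + ∑ j, ξ j (π w) * ν w j) ∂α =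
      ∫ x in {x | 0 ≤ D.F x}, (N x * f x + ∑ j, X j x * ξ j x) * dens D.g x

/-- the set where there is no source -/
def Us (D : Exterior n M) {W : Type} [MeasurableSpace W] (π : W → M) (β : Measure W) : Set M :=
  {x | 0 < D.F x ∧ ∃ O ∈ 𝓝 x, β (π ⁻¹' O) = 0}

end Vale.Agent.P366K
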