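import Vale.Agent.P366K.Rep
import Vale.Agent.P366M.End1

/-!
# P366K: uniform bounds for the jets
-/

set_option linter.all false

open Filter Topology Matrix Set Metric Asymptotics
open scoped ContDiff
open Vale.Agent.P366

noncomputable section

namespace Vale.Agent.P366K

namespace C

/-- the formula of Taylor, uniformly on a compact set -/
theorem tay {V : Type} [NormedAddCommGroup V] [NormedSpace ℝ V] [FiniteDimensional ℝ V]
    {Φ : V → ℝ} {S : Set V} (hS : IsCompact S) (hΦ : ∀ a ∈ S, ContDiffAt ℝ 2 Φ a) :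
    ∃ δ > 0, ∃ C, ∀ a ∈ S, ∀ b, ‖b‖ ≤ δ → |Φ (a + b) - Φ a - fderiv ℝ Φ a b| ≤ C * ‖b‖ ^ 2 := by
  haveI := FiniteDimensional.proper_real V
  have ho : IsOpen {a | ContDiffAt ℝ 2 Φ a} :=
    isOpen_iff_mem_nhds.2 fun a ha => ContDiffAt.eventually ha (by simp)
  obtain ⟨δ, h0, hδ⟩ := hS.exists_cthickening_subset_open ho hΦ
  have h1 : ∀ a ∈ cthickening δ S, ContDiffAt ℝ 1 (fderiv ℝ Φ) a := fun a ha =>
    ContDiffAt.fderiv_right (n := 2) (hδ ha) (by norm_num)
  obtain ⟨C, hC⟩ := (hS.cthickening (r := δ)).exists_bound_of_continuousOn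
    (f := fderiv ℝ (fderiv ℝ Φ)) fun a ha =>
      ((h1 a ha).fderiv_right (m := 0) (by norm_num)).continuousAt.continuousWithinAt
  refine ⟨δ, h0, C, fun a ha b hb => ?_⟩
  have sub : closedBall a ‖b‖ ⊆ cthickening δ S :=
    (closedBall_subset_closedBall hb).trans (closedBall_subset_cthickening ha δ)
  have m := mem_closedBall_self (x := a) (norm_nonneg b)
  have C0 : 0 ≤ C := (norm_nonneg _).trans (hC a (sub m))
  have := (convex_closedBall a ‖b‖).norm_image_sub_le_of_norm_fderiv_le' (𝕜 := ℝ) (f := Φ)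
    (φ := fderiv ℝ Φ a) (C := C * ‖b‖) (y := a + b)
    (fun z hz => ContDiffAt.differentiableAt (n := 2) (hδ (sub hz)) (by simp))
    (fun z hz => ((convex_closedBall a ‖b‖).norm_image_sub_le_of_norm_fderiv_le (𝕜 := ℝ)
      (fun w hw => (h1 w (sub hw)).differentiableAt (by simp)) (fun w hw => hC w (sub hw)) m
        hz).trans (mul_le_mul_of_nonneg_left (mem_closedBall_iff_norm.1 hz) C0)) m (by simp)
  rw [add_sub_cancel_left, mul_assoc, ← sq] at this
  exact this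

end C

open Vale.Agent.P366M
open Vale.Agent.P366.Stmt (E BigO)

variable {n : ℕ} {M : Type} [Mfe n M] {g K h k : Fld n M}

/-- the scale -/
def rr (y : E n) : ℝ := √(1 + ‖y‖ ^ 2)

theorem one_le_rr (y : E n) : 1 ≤ rr y := Real.one_le_sqrt.2 (by simp)

theorem rr_pos (y : E n) : 0 < rr y := one_pos.trans_le (one_le_rr y)

theorem wt_rr (ε : ℝ) (x : M) : wt ε x = rr (px x) ^ ((n : ℝ) + ε) := by
  rw [wt, rr, Real.sqrt_eq_rpow, ← Real.rpow_mul (by positivity)]
  congr 1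
  ring

/-- the scaled jets in the preferred charts -/
def jM (g K : Fld n M) (x : M) : C.Jt n :=
  C.sc (rr (px x)) (C.jet (rep (ch x) g) (rep (ch x) K) (pt x))

theorem jM_fst (g K : Fld n M) (x : M) : (jM g K x).1 = g x := rep_pt g x

theorem pt_bd (R : ℝ) : ∃ C, ∀ x : M, ‖px x‖ ≤ R → ‖pt x‖ ≤ C := by
  obtain ⟨C, hC⟩ := Mfs.core (M := M)
  refine ⟨max C R, fun x hx => ?_⟩
  rcases le_total ‖px x‖ (R0 M) with h | h
  · exact (hC x h).trans (le_max_left _ _)
  · exact (pt_far h ▸ hx).trans (le_max_right _ _)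

theorem core_cpt {V : Type} [TopologicalSpace V] (f : Ch n M → E n → V)
    (hf : ∀ e ∈ At M, Continuous (f e)) (R : ℝ) : ∃ S, IsCompact S ∧
      (∀ v ∈ S, ∃ e ∈ At M, ∃ y, v = f e y) ∧ ∀ x : M, ‖px x‖ ≤ R → f (ch x) (pt x) ∈ S := by
  obtain ⟨C, hC⟩ := pt_bd (M := M) R
  refine ⟨⋃ e ∈ range fun x : M => ch x, f e '' closedBall 0 C, (Mfs.fin (M := M)).isCompact_biUnion
    ?_, fun v hv => ?_, fun x hx => mem_biUnion (mem_range_self x)
      ⟨pt x, mem_closedBall_zero_iff.2 (hC x hx), rfl⟩⟩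
  · rintro _ ⟨x, rfl⟩
    exact (isCompact_closedBall 0 C).image (hf _ (ch_mem x))
  · obtain ⟨_, ⟨_, rfl⟩, _, ⟨⟨x, rfl⟩, rfl⟩, y, -, rfl⟩ := hv
    exact ⟨_, ch_mem x, y, rfl⟩

theorem bo_rr {s : ℝ} {f : E n → ℝ} (hs : 0 ≤ s) (hf : BigO s f) :
    (fun y => rr y ^ s * f y) =O[comap norm atTop] fun _ => (1 : ℝ) := by
  obtain ⟨C, R, h⟩ := hf
  refine .of_bound (2 ^ s * C) ((tendsto_comap.eventually ((eventually_gt_atTop R).and
    (eventually_ge_atTop 1))).mono fun y ⟨h1, h2⟩ => ?_)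
  have r : rr y ≤ 2 * ‖y‖ := Real.sqrt_le_iff.2 ⟨by positivity, by nlinarith⟩
  have p : 0 < ‖y‖ ^ s := by positivity
  have := h y h1
  rw [Stmt.len, Real.rpow_neg (norm_nonneg _), ← div_eq_mul_inv] at this
  rw [norm_one, mul_one, Real.norm_eq_abs, abs_mul, abs_of_pos (Real.rpow_pos_of_pos (rr_pos y) s)]
  calc rr y ^ s * |f y| ≤ (2 * ‖y‖) ^ s * (C / ‖y‖ ^ s) := by
        gcongr
        exact (rr_pos y).le
    _ = 2 ^ s * C := by
        rw [Real.mul_rpow two_pos.le (norm_nonneg _)]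
        field_simp

theorem far_yp {P : M → Prop} (h : ∀ᶠ y in comap norm atTop, P (yp y)) :
    ∃ R, ∀ x : M, R < ‖px x‖ → P x := by
  obtain ⟨R, hR⟩ := eventually_atTop.1 (eventually_comap.1 h)
  refine ⟨max R (R0 M), fun x hx => ?_⟩
  obtain ⟨j, hj⟩ := far_ex (x := x) (by linarith [le_max_right R (R0 M)])
  rw [Mfe.one j] at hj
  exact hj ▸ hR _ ((le_max_left _ _).trans hx.le) _ rfl

theorem jet_bd {p : ℝ} (hp : 0 ≤ p) (hh : SmT h) (hk : SmT k)
    (H : ∀ i j a b, BigO p (fun y => fe h y i j) ∧ BigO (p + 1) (Stmt.pd a fun y => fe h y i j) ∧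
      BigO (p + 2) (Stmt.pd b (Stmt.pd a fun y => fe h y i j)) ∧
      BigO (p + 1) (fun y => fe k y i j) ∧ BigO (p + 2) (Stmt.pd a fun y => fe k y i j)) :
    ∃ C, ∀ x : M, rr (px x) ^ p * ‖jM h k x‖ ≤ C := by
  have e1 : ∀ (y : E n) u, rr y ^ p * (rr y * u) = rr y ^ (p + 1) * u := fun y u => by
    rw [Real.rpow_add_one (rr_pos y).ne', mul_assoc]
  have e2 : ∀ (y : E n) u, rr y ^ p * (rr y ^ 2 * u) = rr y ^ (p + 2) * u := fun y u => by
    rw [Real.rpow_add (rr_pos y), Real.rpow_two, mul_assoc]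
  have O : (fun y => rr y ^ p • C.sc (rr y) (C.jet (fe h) (fe k) y)) =O[comap norm atTop]
      fun _ => (1 : ℝ) := by
    refine IsBigO.prod_left (isBigO_pi.2 fun i => isBigO_pi.2 fun j => bo_rr hp (H i j i i).1)
      (IsBigO.prod_left (isBigO_pi.2 fun a => isBigO_pi.2 fun i => isBigO_pi.2 fun j => ?_)
      (IsBigO.prod_left (isBigO_pi.2 fun b => isBigO_pi.2 fun a => isBigO_pi.2 fun i =>
        isBigO_pi.2 fun j => ?_) (IsBigO.prod_left (isBigO_pi.2 fun i => isBigO_pi.2 fun j => ?_)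
          (isBigO_pi.2 fun a => isBigO_pi.2 fun i => isBigO_pi.2 fun j => ?_))))
    · exact (bo_rr (by linarith) (H i j a a).2.1).congr_left fun y => (e1 y _).symm
    · exact (bo_rr (by linarith) (H i j a b).2.2.1).congr_left fun y => (e2 y _).symm
    · exact (bo_rr (by linarith) (H i j i i).2.2.2.1).congr_left fun y => (e1 y _).symm
    · exact (bo_rr (by linarith) (H i j a a).2.2.2.2).congr_left fun y => (e2 y _).symm
  obtain ⟨C1, h1⟩ := O.bound
  obtain ⟨R, hR⟩ := far_yp (P := fun x : M => rr (px x) ^ p * ‖jM h k x‖ ≤ C1) (by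
    filter_upwards [h1, tendsto_comap.eventually (eventually_gt_atTop (R0 M))] with y h1 h2
    have a := rep_ye (j := Mfe.o) h2 h
    have b := rep_ye (j := Mfe.o) h2 k
    have c : ∀ {T T' : Stmt.Field n}, T =ᶠ[𝓝 y] T' → ∀ i j,
      (fun z => T z i j) =ᶠ[𝓝 y] fun z => T' z i j := fun h i j =>
        h.mono fun z hz => congrFun (congrFun hz i) j
    have : C.jet (rep (ch (yp y)) h) (rep (ch (yp y)) k) y = C.jet (fe h) (fe k) y := by
      simp only [C.jet, yp, a.self_of_nhds, b.self_of_nhds, P366Z.pd_congr (c a _ _),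
        P366Z.pd_congr (c b _ _), P366Z.pd_congr (P366Z.pd_congr_ev (c a _ _) _)]
      rfl
    rw [norm_smul, norm_one, mul_one, Real.norm_of_nonneg (Real.rpow_pos_of_pos (rr_pos y) p).le,
      ← this] at h1
    simpa only [jM, yp, px_ye' h2.le, pt_ye h2.le] using h1)
  obtain ⟨S, hS, -, hx⟩ := core_cpt (fun e => C.jet (rep e h) (rep e k))
    (fun e he => (C.cd_jet (hh e he) (hk e he)).continuous) R
  obtain ⟨C2, h2⟩ := ((isCompact_closedBall (0 : E n) R).prod hS).exists_bound_of_continuousOn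
    (f := fun q => rr q.1 ^ p * ‖C.sc (rr q.1) q.2‖) (Continuous.continuousOn (by
      have : Continuous (rr : E n → ℝ) := by unfold rr; fun_prop
      refine ((this.comp continuous_fst).rpow_const fun _ => Or.inr hp).mul (Continuous.norm ?_)
      simp only [C.sc, ContinuousLinearMap.coe_prodMap', Prod.map, ContinuousLinearMap.smul_apply,
        ContinuousLinearMap.id_apply]
      fun_prop))
  refine ⟨max C1 C2, fun x => ?_⟩
  rcases lt_or_ge R ‖px x‖ with h | h
  · exact (hR x h).trans (le_max_left _ _)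
  · exact ((le_abs_self _).trans (h2 (px x, _) ⟨mem_closedBall_zero_iff.2 h, hx x h⟩)).trans
      (le_max_right _ _)

theorem bo_mono {p q : ℝ} {f : E n → ℝ} (hf : BigO q f) (h : p ≤ q) : BigO p f := by
  obtain ⟨C, R, hC⟩ := hf
  refine ⟨|C|, max R 1, fun y hy => (hC y ((le_max_left _ _).trans_lt hy)).trans ?_⟩
  have := (le_max_right _ _).trans_lt hy
  gcongr
  · exact le_abs_self C
  · exact this.le

theorem g_cpt {D : Exterior n M} (hn : 3 ≤ n) (H : D.IsAF) :
    ∃ S, IsCompact S ∧ (∀ A ∈ S, C.Ps A) ∧ ∀ x, D.g x ∈ S := by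
  obtain ⟨q, hq, H⟩ := H
  have q0 : 0 < q := by
    have : (3 : ℝ) ≤ n := by exact_mod_cast hn
    linarith
  let I : C.T2 n := fun i j => if i = j then 1 else 0
  obtain ⟨η, h0, hη⟩ := nhds_basis_closedBall.mem_iff.1 (C.ps_open.mem_nhds
    (show C.Ps I from fun v hv => P366Z.met_eu.g_pos (0 : E n) hv))
  obtain ⟨R, hR⟩ := far_yp (P := fun x : M => D.g x ∈ closedBall I η) (by
    refine Tendsto.eventually (f := fe D.g) (tendsto_pi_nhds.2 fun i => tendsto_pi_nhds.2 fun j => ?_)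
      (closedBall_mem_nhds I h0)
    obtain ⟨C, R, h⟩ := (H i j i i).1
    refine tendsto_sub_nhds_zero_iff.1 (squeeze_zero_norm'
      ((tendsto_comap.eventually (eventually_gt_atTop R)).mono h) ?_)
    exact mul_zero C ▸ ((tendsto_rpow_neg_atTop q0).comp tendsto_comap).const_mul C)
  obtain ⟨S, hS, h1, h2⟩ := core_cpt (fun e => rep e D.g)
    (fun e he => continuous_pi fun i => continuous_pi fun j => (D.met.sm e he i j).cont) R
  refine ⟨S ∪ closedBall I η, hS.union (isCompact_closedBall _ _), fun A hA => hA.elim (fun h => ?_)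
    fun h => hη h, fun x => (lt_or_ge R ‖px x‖).elim (fun h => Or.inr (hR x h)) fun h =>
      Or.inl (rep_pt D.g x ▸ h2 x h)⟩
  obtain ⟨e, he, y, rfl⟩ := h1 A h
  exact fun v hv => (D.met.rep he).g_pos y hv

theorem Var0.bd {dE : ℝ} {dP : Fin n → ℝ} (hn : 3 ≤ n) (V : Var0 h k dE dP) :
    ∃ C, ∀ x : M, rr (px x) ^ ((n : ℝ) - 2) * ‖jM h k x‖ ≤ C := by
  have : (3 : ℝ) ≤ n := by exact_mod_cast hn
  refine jet_bd (by linarith) V.sh.sm V.sk.sm fun i j a b => ?_
  rw [show (n : ℝ) - 2 + 1 = n - 1 by ring, sub_add_cancel]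
  exact V.dec i j a b

theorem met_fam {D : Exterior n M} {dE : ℝ} {dP : Fin n → ℝ} (hn : 3 ≤ n) (H : D.IsAF)
    (V : Var0 h k dE dP) : ∀ᶠ t in 𝓝 (0 : ℝ), Met (fam D.g h t) := by
  obtain ⟨S, hS, h1, h2⟩ := g_cpt hn H
  obtain ⟨B, hC⟩ := V.bd hn
  obtain ⟨δ, h0, hδ⟩ := hS.exists_cthickening_subset_open C.ps_open h1
  have : (3 : ℝ) ≤ n := by exact_mod_cast hn
  have hb : ∀ x, ‖h x‖ ≤ B := fun x => (jM_fst h k x ▸ norm_fst_le _).trans
    ((le_mul_of_one_le_left (norm_nonneg _) (Real.one_le_rpow (one_le_rr _) (by linarith))).trans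
      (hC x))
  have c : ContinuousAt (fun t : ℝ => |t| * B) 0 := by fun_prop
  filter_upwards [c.eventually (ge_mem_nhds (by simpa using h0))] with t ht
  have sy : ∀ x i j, fam D.g h t x i j = fam D.g h t x j i := fun x i j => by
    rw [fam, fam, D.met.sy, V.sh.sy]
  refine ⟨smT_fam D.met.sm V.sh.sm t, sy, fun x => C.ps_def (A := fam D.g h t x) (sy x)
    (hδ (closedBall_subset_cthickening (h2 x) δ (mem_closedBall_iff_norm.2 ?_)))⟩
  rw [show fam D.g h t x - D.g x = t • h x from by ext; simp [fam], norm_smul]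
  exact (mul_le_mul_of_nonneg_left (hb x) (norm_nonneg _)).trans ht

end Vale.Agent.P366K
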