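import Vale.Agent.P366K.Defs
import Vale.Agent.P366XR.Cov

/-!
# P366K: product rules for tensors in a chart
-/

set_option linter.all false

open Filter Topology Matrix
open scoped ContDiff
open Vale.Agent.P366.Stmt Vale.Agent.P366Z Vale.Agent.P366XR
open Vale.Agent.P366Y.C (rc Sy)

noncomputable section

namespace Vale.Agent.P366K.C

variable {n : ℕ} {g A B T : Field n} {x : E n} {f : E n → ℝ}

theorem mat_ml (g A B : Field n) (x : E n) :
    mat (ml g A B) x = mat A x * (mat g x)⁻¹ * mat B x := by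
  ext i j
  simp only [mul_apply, Finset.sum_mul]
  rw [Finset.sum_comm]
  rfl

theorem p4 {ι : Type} [Fintype ι] {F G : ι → ι → ι → ι → ℝ} (f f' : ι × ι × ι × ι → ι × ι × ι × ι)
    (h1 : ∀ p, f' (f p) = p) (h2 : ∀ p, f (f' p) = p)
    (h : ∀ p, F p.1 p.2.1 p.2.2.1 p.2.2.2 = G (f p).1 (f p).2.1 (f p).2.2.1 (f p).2.2.2) :
    ∑ i, ∑ j, ∑ k, ∑ l, F i j k l = ∑ i, ∑ j, ∑ k, ∑ l, G i j k l := by
  have := Fintype.sum_equiv ⟨f, f', h1, h2⟩ (fun p => F p.1 p.2.1 p.2.2.1 p.2.2.2)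
    (fun p => G p.1 p.2.1 p.2.2.1 p.2.2.2) h
  simpa only [Fintype.sum_prod_type] using this

theorem p3 {ι : Type} [Fintype ι] {F G : ι → ι → ι → ℝ} (f f' : ι × ι × ι → ι × ι × ι)
    (h1 : ∀ p, f' (f p) = p) (h2 : ∀ p, f (f' p) = p)
    (h : ∀ p, F p.1 p.2.1 p.2.2 = G (f p).1 (f p).2.1 (f p).2.2) :
    ∑ i, ∑ j, ∑ k, F i j k = ∑ i, ∑ j, ∑ k, G i j k := by
  have := Fintype.sum_equiv ⟨f, f', h1, h2⟩ (fun p => F p.1 p.2.1 p.2.2)
    (fun p => G p.1 p.2.1 p.2.2) h
  simpa only [Fintype.sum_prod_type] using this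

theorem pr_eq (g A B : Field n) (x : E n) :
    pr g A B x = trace ((mat g x)⁻¹ᵀ * mat A x * (mat g x)⁻¹ * (mat B x)ᵀ) := by
  simp only [pr, trace, diag, mul_apply, transpose_apply, Finset.sum_mul]
  refine p4 (fun (i, j, k, l) => (k, l, j, i)) (fun (k, l, j, i) => (i, j, k, l)) (fun _ => rfl)
    (fun _ => rfl) fun (i, j, k, l) => ?_
  simp only [up, mat]
  ring

theorem pr_tr (hg : Met g) (A : Field n) (hB : ∀ i j, B x i j = B x j i) :
    pr g A B x = trace ((mat g x)⁻¹ * mat A x * (mat g x)⁻¹ * mat B x) := by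
  rw [pr_eq, inv_sy hg, show (mat B x)ᵀ = mat B x from Matrix.ext fun i j => hB j i]

theorem pr_ml (hg : Met g) (A : Field n) (hB : ∀ i j, B x i j = B x j i) :
    pr g A B x = tr g (ml g A B) x := by
  rw [pr_tr hg A hB, tr_eq hg, mat_ml]
  simp only [Matrix.mul_assoc]

theorem pr_comm (hg : Met g) (A B : Field n) (x : E n) : pr g A B x = pr g B A x :=
  p4 (fun (i, j, k, l) => (k, l, i, j)) (fun (k, l, i, j) => (i, j, k, l)) (fun _ => rfl)
    (fun _ => rfl) fun (i, j, k, l) => by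
      simp only [hg.up_sy k i, hg.up_sy l j]
      ring

theorem sm_ml (hg : Met g) (hA : Sm A) (hB : Sm B) : Sm (ml g A B) := fun i j =>
  ContDiff.sum fun k _ => ContDiff.sum fun l _ => ((hA i k).mul (hg.sm_up k l)).mul (hB l j)

theorem sm_pr (hg : Met g) (hA : Sm A) (hB : Sm B) : Smooth (pr g A B) :=
  ContDiff.sum fun i _ => ContDiff.sum fun j _ => ContDiff.sum fun k _ => ContDiff.sum fun l _ =>
    (((hg.sm_up i k).mul (hg.sm_up j l)).mul (hA i j)).mul (hB k l)

theorem sm_momT (hg : Met g) (hT : Sm T) : Sm (momT g T) := fun i j =>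
  ContDiff.sub (hT i j) ((sm_tr hg hT).mul (hg.sm i j))

theorem sm_cT (hg : Met g) (hT : Sm T) (k i j : Fin n) : Smooth (cT g T k i j) :=
  ContDiff.sub ((hT i j).pd k) (ContDiff.sum fun l _ =>
    ((hg.sm_chr l k i).mul (hT l j)).add ((hg.sm_chr l k j).mul (hT i l)))

theorem sm_dvT (hg : Met g) (hT : Sm T) (j : Fin n) : Smooth (dvT g T j) :=
  ContDiff.sum fun i _ => ContDiff.sum fun k _ => (hg.sm_up i k).mul (sm_cT hg hT k i j)

theorem sm_mom (hg : Met g) (hT : Sm T) (j : Fin n) : Smooth (mom g T j) :=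
  sm_dvT hg (sm_momT hg hT) j

theorem sm_rs (hg : Met g) {w : Fin n → E n → ℝ} (hw : ∀ j, Smooth (w j)) (i : Fin n) :
    Smooth (rs g w i) := ContDiff.sum fun j _ => (hg.sm_up i j).mul (hw j)

theorem sy_momT (hg : Met g) (hT : Sy T) : Sy (momT g T) :=
  ⟨sm_momT hg hT.sm, fun x i j => by simp only [momT, hT.sy x i j, hg.sy x i j]⟩

theorem cT_sy (g : Field n) (hT : ∀ x i j, T x i j = T x j i) (k i j : Fin n) (x : E n) :
    cT g T k i j x = cT g T k j i x := by
  simp only [cT, hT _ i j, hT x _ j, hT x i, add_comm]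

theorem pM_mul {P Q : E n → Mx n} (hP : ∀ i j, DifferentiableAt ℝ (fun y => P y i j) x)
    (hQ : ∀ i j, DifferentiableAt ℝ (fun y => Q y i j) x) (k : Fin n) :
    pM (fun y => P y * Q y) k x = pM P k x * Q x + P x * pM Q k x := by
  ext i j
  refine (pd_sum Finset.univ (F := fun l y => P y i l * Q y l j)
    (fun l _ => (hP i l).fun_mul (hQ l j)) k).trans ?_
  simp only [pd_mul (hP i _) (hQ _ j), Finset.sum_add_distrib]
  rfl

theorem cM_ml (hg : Met g) (hA : Sm A) (hB : Sm B) (k : Fin n) (x : E n) :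
    cM g (ml g A B) k x =
      cM g A k x * (mat g x)⁻¹ * mat B x + mat A x * (mat g x)⁻¹ * cM g B k x := by
  have hU : ∀ i j, DifferentiableAt ℝ (fun y => (mat g y)⁻¹ i j) x := fun i j =>
    (hg.sm_up i j).diff x
  rw [cM_eq, cM_eq, cM_eq, funext (mat_ml g A B), pM_mul (P := fun y => mat A y * (mat g y)⁻¹)
    (fun i j => DifferentiableAt.fun_sum (u := Finset.univ) fun l _ =>
      (hA.df x i l).fun_mul (hU l j)) (hB.df x), pM_mul (hA.df x) hU, pM_inv hg]
  simp only [Matrix.mul_add, Matrix.add_mul, Matrix.mul_sub, Matrix.sub_mul, Matrix.mul_neg,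
    Matrix.neg_mul, Matrix.mul_assoc]
  abel

theorem cT_add (g : Field n) (hA : Sm A) (hB : Sm B) (k i j : Fin n) (x : E n) :
    cT g (fun y i j => A y i j + B y i j) k i j x = cT g A k i j x + cT g B k i j x := by
  simp only [cT, pd_add ((hA i j).diff x) ((hB i j).diff x), mul_add, Finset.sum_add_distrib]
  ring

theorem cT_sub (g : Field n) (hA : Sm A) (hB : Sm B) (k i j : Fin n) (x : E n) :
    cT g (fun y i j => A y i j - B y i j) k i j x = cT g A k i j x - cT g B k i j x := by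
  simp only [cT, pd_sub ((hA i j).diff x) ((hB i j).diff x), mul_sub, Finset.sum_add_distrib,
    Finset.sum_sub_distrib]
  ring

theorem cT_smul (g : Field n) (hf : DifferentiableAt ℝ f x) (hA : Sm A) (k i j : Fin n) :
    cT g (fun y i j => f y * A y i j) k i j x = pd k f x * A x i j + f x * cT g A k i j x := by
  simp only [cT, pd_mul hf ((hA i j).diff x), mul_sub, mul_add, Finset.mul_sum,
    mul_left_comm (f x)]
  ring

theorem cT_g (hg : Met g) (k i j : Fin n) (x : E n) : cT g g k i j x = 0 :=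
  congrFun (congrFun (cM_g hg k x) i) j

theorem dvT_cT (g T : Field n) (j : Fin n) (x : E n) :
    dvT g T j x = ∑ i, ∑ k, up g i k x * cT g T k i j x := rfl

theorem dvT_add (g : Field n) (hA : Sm A) (hB : Sm B) (j : Fin n) (x : E n) :
    dvT g (fun y i j => A y i j + B y i j) j x = dvT g A j x + dvT g B j x := by
  simp only [dvT_cT, cT_add g hA hB, mul_add, Finset.sum_add_distrib]

theorem dvT_sub (g : Field n) (hA : Sm A) (hB : Sm B) (j : Fin n) (x : E n) :
    dvT g (fun y i j => A y i j - B y i j) j x = dvT g A j x - dvT g B j x := by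
  simp only [dvT_cT, cT_sub g hA hB, mul_sub, Finset.sum_sub_distrib]

theorem dvT_smul (g : Field n) (hf : DifferentiableAt ℝ f x) (hA : Sm A) (j : Fin n) :
    dvT g (fun y i j => f y * A y i j) j x =
      ∑ i, ∑ k, up g i k x * (pd k f x * A x i j) + f x * dvT g A j x := by
  simp only [dvT_cT, cT_smul g hf hA, mul_add, Finset.sum_add_distrib, Finset.mul_sum,
    mul_left_comm (f x)]

theorem dvT_fg (hg : Met g) (hf : DifferentiableAt ℝ f x) (j : Fin n) :
    dvT g (fun y i j => f y * g y i j) j x = pd j f x := by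
  rw [dvT_smul g hf hg.sm, ← hg.g_up_mul x j fun k => pd k f x]
  simp only [dvT_cT, cT_g hg, mul_zero, Finset.sum_const_zero, add_zero, Finset.mul_sum, hg.sy x j]
  exact Finset.sum_congr rfl fun _ _ => Finset.sum_congr rfl fun _ _ => by ring

theorem dvT_mat (g T : Field n) (j : Fin n) (x : E n) :
    dvT g T j x = ∑ k, ((mat g x)⁻¹ᵀ * cM g T k x) k j := by
  rw [dvT_cT, Finset.sum_comm]
  rfl

theorem dvT_ml (hg : Met g) (hA : Sm A) (hB : Sm B) (j : Fin n) (x : E n) :
    dvT g (ml g A B) j x = ∑ a, ∑ b, dvT g A a x * up g a b x * B x b j +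
      ∑ k, ((mat g x)⁻¹ * mat A x * (mat g x)⁻¹ * cM g B k x) k j := by
  simp only [dvT_mat, cM_ml hg hA hB, inv_sy hg, Matrix.mul_add, Matrix.add_apply,
    Finset.sum_add_distrib, ← Matrix.mul_assoc]
  congr 1
  simp only [mul_apply (M := (mat g x)⁻¹ * cM g A _ x * (mat g x)⁻¹),
    mul_apply (M := (mat g x)⁻¹ * cM g A _ x), Finset.sum_mul]
  rw [← P366P.rot3, P366P.swp3]
  rfl

theorem pd_pr (hg : Met g) (hA : Sm A) (hB : Sy B) (k : Fin n) (x : E n) :
    pd k (pr g A B) x = trace ((mat g x)⁻¹ * cM g A k x * (mat g x)⁻¹ * mat B x) +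
      trace ((mat g x)⁻¹ * mat A x * (mat g x)⁻¹ * cM g B k x) := by
  rw [show pr g A B = _ from funext fun y => pr_ml hg A (hB.sy y), pd_tr hg (sm_ml hg hA hB.sm), cM_ml hg hA hB.sm]
  simp only [Matrix.mul_add, trace_add, Matrix.mul_assoc]

end Vale.Agent.P366K.C
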