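import Vale.Agent.P366K.Jet

/-!
# P366K: the variations in a chart
-/

set_option linter.all false

open Filter Topology Matrix Set Metric
open scoped ContDiff
open Vale.Agent.P366

noncomputable section

namespace Vale.Agent.P366K

namespace C

open Vale.Agent.P366.Stmt Vale.Agent.P366Z Vale.Agent.P366XR
open Vale.Agent.P366Y.C (rc Sy)

variable {n : ℕ} {g K h k : Field n} {y : E n} {F : E n → ℝ}

/-- positive forms -/
def Ps (A : T2 n) : Prop := ∀ v : Fin n → ℝ, v ≠ 0 → 0 < ∑ i, ∑ j, A i j * v i * v j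

theorem ps_open : IsOpen {A : T2 n | Ps A} := by
  refine isOpen_iff_mem_nhds.2 fun A hA => ?_
  have := (isCompact_sphere (0 : Fin n → ℝ) 1).eventually_forall_of_forall_eventually (x₀ := A)
    (P := fun (B : T2 n) v => 0 < ∑ i, ∑ j, B i j * v i * v j) fun v hv =>
      (isOpen_lt continuous_const (by fun_prop)).mem_nhds (hA v (ne_zero_of_mem_unit_sphere ⟨v, hv⟩))
  filter_upwards [this] with B hB v hv
  have h0 := norm_pos_iff.2 hv
  have h1 := hB (‖v‖⁻¹ • v) (by simp [norm_smul, h0.ne'])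
  have : ∑ i, ∑ j, B i j * v i * v j = ‖v‖ ^ 2 * ∑ i, ∑ j, B i j * (‖v‖⁻¹ • v) i * (‖v‖⁻¹ • v) j := by
    simp only [Finset.mul_sum, Pi.smul_apply, smul_eq_mul]
    exact Finset.sum_congr rfl fun _ _ => Finset.sum_congr rfl fun _ _ => by field_simp
  rw [this]
  positivity

theorem ps_def {A : T2 n} (hs : ∀ i j, A i j = A j i) (hA : Ps A) : (of A).PosDef :=
  PosDef.of_dotProduct_mulVec_pos (Matrix.ext fun i j => hs j i) fun v hv =>
    (hA v hv).trans_eq (quad_eq (of A) v)

theorem ps_det {A : T2 n} (hA : Ps A) : (of A).det ≠ 0 := fun h => by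
  obtain ⟨v, hv, e⟩ := Matrix.exists_mulVec_eq_zero_iff.2 h
  have := hA v hv
  rw [show ∑ i, ∑ j, A i j * v i * v j = _ from quad_eq (of A) v, e] at this
  simp at this

theorem loc_met (hg : Met g) (hh : Sy h) (y : E n) : ∀ᶠ t in 𝓝 (0 : ℝ), ∃ g', Met g' ∧
    (fun z i j => g z i j + t * h z i j) =ᶠ[𝓝 y] g' := by
  let χ : ContDiffBump y := ⟨1, 2, one_pos, one_lt_two⟩
  have c : Continuous fun p : ℝ × E n => (fun i j => g p.2 i j + p.1 * (χ p.2 * h p.2 i j) : T2 n) :=
    continuous_pi fun i => continuous_pi fun j => ((hg.sm i j).cont.comp continuous_snd).add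
      (continuous_fst.mul ((χ.continuous.mul (hh.sm i j).cont).comp continuous_snd))
  have := (isCompact_closedBall y 2).eventually_forall_of_forall_eventually (x₀ := (0 : ℝ))
    (P := fun t z => Ps fun i j => g z i j + t * (χ z * h z i j)) fun z _ =>
      (ps_open.preimage c).mem_nhds fun v hv => by simpa using hg.g_pos z hv
  filter_upwards [this] with t ht
  have sy : ∀ z i j, g z i j + t * (χ z * h z i j) = g z j i + t * (χ z * h z j i) :=
    fun z i j => by rw [hg.sy, hh.sy]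
  refine ⟨fun z i j => g z i j + t * (χ z * h z i j), ⟨fun i j => ContDiff.add (hg.sm i j)
    (contDiff_const.mul (χ.contDiff.mul (hh.sm i j))), sy, fun z => ps_def (sy z) ?_⟩,
    χ.eventuallyEq_one.mono fun z hz => by simp [hz]⟩
  show Ps fun i j => g z i j + t * (χ z * h z i j)
  by_cases hz : z ∈ closedBall y 2
  · exact ht z hz
  · have : χ z = 0 := χ.zero_of_le_dist (not_le.1 hz).le
    simp only [this, zero_mul, mul_zero, add_zero]
    exact fun v hv => hg.g_pos z hv

theorem jet_congr {G G' L L' : Field n} (hG : G =ᶠ[𝓝 y] G') (hL : L =ᶠ[𝓝 y] L') :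
    mu G L y = mu G' L' y ∧ (∀ j, mom G L j y = mom G' L' j y) ∧
      thetaPlus G L F y = thetaPlus G' L' F y := by
  have h1 : ∀ i j k, pd k (fun y => G y i j) y = pd k (fun y => G' y i j) y :=
    fun i j k => pd_congr (hG.mono fun y hy => by simp only [hy]) k
  have h2 : ∀ i j k, pd k (fun y => momT G L y i j) y = pd k (fun y => momT G' L' y i j) y :=
    fun i j k => pd_congr ((hG.and hL).mono fun y hy => by
      simp only [momT, tr, up, mat, hy.1, hy.2]) k
  refine ⟨?_, fun j => ?_, ?_⟩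
  · simp only [mu, scal_of_ev hG, tr, normSq, up, mat, hG.self_of_nhds, hL.self_of_nhds]
  · simp only [mom, h2]
    simp only [chr, h1, momT, tr, up, mat, hG.self_of_nhds, hL.self_of_nhds]
  · simp only [thetaPlus, trS, tr, nrm, covNorm, hess, chr, up, mat, hG.self_of_nhds,
      hL.self_of_nhds, h1]

theorem fam_lin (hg : Sm g) (hh : Sm h) : Fam (fun t z i j => g z i j + t * h z i j) g h :=
  ⟨fun i j => ((hg i j).comp contDiff_snd).add (contDiff_fst.mul ((hh i j).comp contDiff_snd)),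
    by simp, fun x i j => by
      simpa using ((hasDerivAt_id (0 : ℝ)).mul_const (h x i j)).const_add (g x i j)⟩

theorem der_line {V : Type} [NormedAddCommGroup V] [NormedSpace ℝ V] {Φ : V → ℝ} {a : V}
    (hΦ : DifferentiableAt ℝ Φ a) (b : V) :
    HasDerivAt (fun t : ℝ => Φ (a + t • b)) (fderiv ℝ Φ a b) 0 :=
  (show HasFDerivAt Φ (fderiv ℝ Φ a) (a + (0 : ℝ) • b) by
    simpa using hΦ.hasFDerivAt).comp_hasDerivAt 0 (by
      simpa using ((hasDerivAt_id (0 : ℝ)).smul_const b).const_add a)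

theorem ev_det (hg : Met g) (h : Field n) (y : E n) :
    ∀ᶠ t in 𝓝 (0 : ℝ), (mat (fun z i j => g z i j + t * h z i j) y).det ≠ 0 := by
  have c : Continuous fun t : ℝ => (fun i j => g y i j + t * h y i j : T2 n) := by fun_prop
  exact mem_of_superset ((ps_open.preimage c).mem_nhds fun v hv => by simpa using hg.g_pos y hv)
    fun t ht => ps_det ht

theorem L_jet (hg : Met g) (hK : Sy K) (hh : Sy h) (hk : Sy k) (y : E n) :
    Lmu g K h k y = fderiv ℝ jmu (jet g K y) (jet h k y) ∧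
      ∀ b, Lmom g K h k b y = fderiv ℝ (fun j => jmo j b) (jet g K y) (jet h k y) := by
  have l := lin n _ _ g K h k y hg hK hh hk (fam_lin hg.sm hh.sm) (fam_lin hK.sm hk.sm)
  have e := (ev_det hg h y).mono fun t ht => con_jet (K := fun z i j => K z i j + t * k z i j)
    (fun i j => ContDiff.add (hg.sm i j) (contDiff_const.mul (hh.sm i j)))
    (fun i j => ContDiff.add (hK.sm i j) (contDiff_const.mul (hk.sm i j))) ht
  simp only [jet_fam hg.sm hK.sm hh.sm hk.sm] at e
  have d := (hg.det_pos y).ne'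
  exact ⟨l.1.unique ((der_line ((cd_jmu (j := jet g K y) d).differentiableAt (by simp))
    _).congr_of_eventuallyEq (e.mono fun t ht => ht.1)), fun b => (l.2 b).unique ((der_line
      ((cd_jmo (j := jet g K y) d b).differentiableAt (by simp)) _).congr_of_eventuallyEq
        (e.mono fun t ht => ht.2 b))⟩

theorem jQ_pos (hg : Met g) (hF : ∃ i, pd i F y ≠ 0) : 0 < jQ (jet g K y) (jef F y) :=
  hg.up_pos y fun h => hF.elim fun i hi => hi (congrFun h i)

theorem th_der (hg : Met g) (hK : Sm K) (hh : Sm h) (hk : Sm k) (hF : ∃ i, pd i F y ≠ 0) :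
    HasDerivAt (fun t : ℝ => thetaPlus (fun y i j => g y i j + t * h y i j)
      (fun y i j => K y i j + t * k y i j) F y) (fderiv ℝ (fun p : Jt n × Jf n => jth p.1 p.2)
        (jet g K y, jef F y) (jet h k y, 0)) 0 := by
  simpa only [th_jet, jet_fam hg.sm hK hh hk, Prod.smul_mk, Prod.mk_add_mk, smul_zero,
    add_zero] using der_line ((cd_jth (j := jet g K y) (hg.det_pos y).ne'
      (jQ_pos (K := K) hg hF)).differentiableAt (by simp)) (jet h k y, 0)

theorem sm_L (hg : Met g) (hK : Sy K) (hh : Sy h) (hk : Sy k) :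
    Smooth (Lmu g K h k) ∧ ∀ b, Smooth (Lmo g K h k b) := by
  have c : ∀ {Φ : Jt n → ℝ}, (∀ y, ContDiffAt ℝ ∞ Φ (jet g K y)) →
      Smooth fun y => fderiv ℝ Φ (jet g K y) (jet h k y) := fun hΦ => contDiff_iff_contDiffAt.2
    fun y => (((hΦ y).fderiv_right (m := ∞) le_rfl).comp y
      (cd_jet hg.sm hK.sm).contDiffAt).clm_apply (cd_jet hh.sm hk.sm).contDiffAt
  refine ⟨?_, fun b => ContDiff.sub ?_ ((ContDiff.sum fun a _ => ContDiff.mul (hh.sm b a)
    (sm_rs hg (sm_mom hg hK.sm) a)).div_const 2)⟩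
  · rw [show Lmu g K h k = _ from funext fun y => (L_jet hg hK hh hk y).1]
    exact c fun y => cd_jmu (hg.det_pos y).ne'
  · rw [show Lmom g K h k b = _ from funext fun y => (L_jet hg hK hh hk y).2 b]
    exact c fun y => cd_jmo (j := jet g K y) (hg.det_pos y).ne' b

theorem cont_Lth (hg : Met g) (hK : Sm K) (hh : Sm h) (hk : Sm k) (hF : Smooth F)
    (h0 : ∃ i, pd i F y ≠ 0) : ContinuousAt (Lth g K F h k) y := by
  have ev : ∀ᶠ z in 𝓝 y, ∃ i, pd i F z ≠ 0 := h0.elim fun i hi =>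
    ((hF.pd i).cont.continuousAt.eventually_ne hi).mono fun z hz => ⟨i, hz⟩
  refine ContinuousAt.congr ?_ (ev.mono fun z hz => (th_der hg hK hh hk hz).deriv.symm)
  exact ((((cd_jth (j := jet g K y) (hg.det_pos y).ne'
    (jQ_pos (K := K) hg h0)).fderiv_right (m := ∞) le_rfl).comp y
    ((cd_jet hg.sm hK).prodMk (cd_jef hF)).contDiffAt).clm_apply
      ((cd_jet hh hk).prodMk contDiff_const).contDiffAt).continuousAt

end C

open Vale.Agent.P366M
open Vale.Agent.P366.Stmt (E)

variable {n : ℕ} {M : Type} [Mf0 n M] {g K h k : Fld n M} {F : M → ℝ} {e : Ch n M}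

theorem Sym.rep (hh : Sym h) (he : e ∈ At M) : P366Y.C.Sy (rep e h) :=
  ⟨hh.sm e he, rep_sy hh.sy e⟩

theorem rep_fam (e : Ch n M) (g h : Fld n M) (t : ℝ) :
    rep e (fam g h t) = fun y i j => rep e g y i j + t * rep e h y i j :=
  (rep_add e g fun x i j => t * h x i j).trans (by rw [rep_smul e (fun _ => t) h]; rfl)

theorem smT_fam (hg : SmT g) (hh : SmT h) (t : ℝ) : SmT (fam g h t) :=
  hg.add (SmT.smul (f := fun _ => t) (fun _ _ => contDiff_const) hh)

theorem ev_inv (hg : Met g) (hK : Sym K) (hh : Sym h) (hk : Sym k) (hF : Smooth F) (he : e ∈ At M)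
    (y : E n) : ∀ᶠ t in 𝓝 (0 : ℝ),
    Stmt.mu (rep e (fam g h t)) (rep e (fam K k t)) y = mu (fam g h t) (fam K k t) (e.symm y) ∧
    (∀ j, Stmt.mom (rep e (fam g h t)) (rep e (fam K k t)) j y =
      repC e (mom (fam g h t) (fam K k t)) j y) ∧
    Stmt.thetaPlus (rep e (fam g h t)) (rep e (fam K k t)) (loc e F) y =
      thetaPlus (fam g h t) (fam K k t) F (e.symm y) := by
  filter_upwards [C.loc_met (hg.rep he) (hh.rep he) y, C.loc_met (hg.loc' (e.symm y))
    (hh.rep (ch_mem (e.symm y))) (pt (e.symm y))] with t ⟨g2, m2, e2⟩ ⟨g1, m1, e1⟩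
  rw [← rep_fam] at e1 e2
  have tt : Tendsto (tm e (ch (e.symm y))) (𝓝 y) (𝓝 (pt (e.symm y))) :=
    (tm_cd he (ch_mem _) (mem_ch _)).continuousAt
  have c : P366P.Ctx (tm e (ch (e.symm y))) g1 g2 y := ⟨(hg.ctx he y).c, m1, m2, by
    filter_upwards [pt_rep he (fam g h t) y, e2, tt.eventually e1] with z h1 h2 h3
    rw [← h2, ← h3]
    exact h1⟩
  have p := pt_rep he (fam K k t) y
  have a2 := C.jet_congr (F := loc e F) e2 (EventuallyEq.refl _ (rep e (fam K k t)))
  have a1 := C.jet_congr (F := loc (ch (e.symm y)) F) e1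
    (EventuallyEq.refl _ (rep (ch (e.symm y)) (fam K k t)))
  refine ⟨?_, fun j => ?_, ?_⟩
  · rw [a2.1, c.mu_law p.self_of_nhds, ← mu_pt, a1.1]
    rfl
  · rw [a2.2.1, c.mom_law ((smT_fam hK.sm hk.sm t).dt _) p]
    exact Finset.sum_congr rfl fun a _ => congrArg _ (a1.2.1 a).symm
  · rw [a2.2.2, c.thetaPlus_law (Stmt.Smooth.c2 (hF _ (ch_mem _)) _) (loc_tm F he (mem_ch _)) p.self_of_nhds,
      ← thetaPlus_pt, a1.2.2]
    rfl

theorem der_mom (hg : Met g) (hK : Sym K) (hh : Sym h) (hk : Sym k) (j : Fin n) (x : M) :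
    HasDerivAt (fun t => mom (fam g h t) (fam K k t) j x) (C.Lmom (rep (ch x) g) (rep (ch x) K)
      (rep (ch x) h) (rep (ch x) k) j (pt x)) 0 := by
  have c := ch_mem x
  simpa only [mom, rep_fam] using (C.lin n _ _ _ _ _ _ (pt x) (hg.rep c) (hK.rep c) (hh.rep c)
    (hk.rep c) (C.fam_lin (hg.sm _ c) (hh.sm _ c)) (C.fam_lin (hK.sm _ c) (hk.sm _ c))).2 j

theorem rep_chart (hg : Met g) (hK : Sym K) (hh : Sym h) (hk : Sym k) (hF : Smooth F)
    (he : e ∈ At M) (y : E n) :
    dmu g K h k (e.symm y) = C.Lmu (rep e g) (rep e K) (rep e h) (rep e k) y ∧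
    (∀ j, repC e (dmo g K h k) j y = C.Lmo (rep e g) (rep e K) (rep e h) (rep e k) j y) ∧
    dth g K F h k (e.symm y) = C.Lth (rep e g) (rep e K) (loc e F) (rep e h) (rep e k) y := by
  have ev := ev_inv hg hK hh hk hF he y
  simp only [rep_fam] at ev
  have l := C.lin n _ _ _ _ _ _ y (hg.rep he) (hK.rep he) (hh.rep he)
    (hk.rep he) (C.fam_lin (hg.sm _ he) (hh.sm _ he)) (C.fam_lin (hK.sm _ he) (hk.sm _ he))
  refine ⟨(l.1.congr_of_eventuallyEq (ev.mono fun t ht => ht.1.symm)).deriv, fun j => ?_,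
    EventuallyEq.deriv_eq (ev.mono fun t ht => ht.2.2.symm)⟩
  have e1 := (HasDerivAt.fun_sum (u := Finset.univ) fun a _ =>
    (der_mom hg hK hh hk a (e.symm y)).const_mul (J e y a j)).unique
      ((l.2 j).congr_of_eventuallyEq (ev.mono fun t ht => (ht.2.1 j).symm))
  have e2 := congrFun (congrFun (lower_rep he h fun a x => ∑ b, up g a b x * mom g K b x) j) y
  rw [raise_rep he (fun x a b => up g a b x), repC_mom hg he hK.sm] at e2
  simp only [← up_rep] at e2
  rw [C.Lmo, ← e1]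
  simp only [C.rs, ← e2, repC, dmo, (der_mom hg hK hh hk _ _).deriv, mul_sub, ← mul_div_assoc,
    Finset.sum_sub_distrib, ← Finset.sum_div]

theorem rep_ : REP := by
  intro n M _ g K h k F hg hK hh hk hF
  have r := fun {h k} (hh : Sym h) (hk : Sym k) {e} he => rep_chart hg hK hh hk hF (e := e) he
  refine ⟨fun e he y => ⟨(r hh hk he y).1, (r hh hk he y).2.1, fun _ => (r hh hk he y).2.2⟩,
    fun e he => ?_, fun e he j => ?_, fun x hx => ?_, fun h' k' a b hh' hk' x => ?_⟩
  · rw [show loc e (dmu g K h k) = _ from funext fun y => (r hh hk he y).1]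
    exact (C.sm_L (hg.rep he) (hK.rep he) (hh.rep he) (hk.rep he)).1
  · rw [show repC e (dmo g K h k) j = _ from funext fun y => (r hh hk he y).2.1 j]
    exact (C.sm_L (hg.rep he) (hK.rep he) (hh.rep he) (hk.rep he)).2 j
  · have c := ch_mem x
    refine (contAt_of_loc ?_).continuousWithinAt
    rw [show loc (ch x) (dth g K F h k) = _ from funext fun y => (r hh hk c y).2.2]
    exact C.cont_Lth (hg.rep c) (hK.sm _ c) (hh.sm _ c) (hk.sm _ c) (hF _ c) hx
  have c := ch_mem x
  have s : ∀ {h h' : Fld n M}, Sym h → Sym h' → Sym fun y i j => a * h y i j + b * h' y i j :=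
    fun h1 h2 => ⟨(SmT.smul (f := fun _ => a) (fun _ _ => contDiff_const) h1.sm).add
      (SmT.smul (f := fun _ => b) (fun _ _ => contDiff_const) h2.sm),
        fun x i j => by rw [h1.sy, h2.sy]⟩
  have q : ∀ h h' : Fld n M, rep (ch x) (fun y i j => a * h y i j + b * h' y i j) =
      fun y i j => a * rep (ch x) h y i j + b * rep (ch x) h' y i j := fun h h' => by
    rw [rep_add, rep_smul _ (fun _ => a), rep_smul _ (fun _ => b)]
    rfl
  have j := C.jet_lin (hh.sm _ c) (hk.sm _ c) (hh'.sm _ c) (hk'.sm _ c) a b (pt x)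
  rw [← q, ← q] at j
  have L := fun {h k} (hh : Sym h) (hk : Sym k) =>
    C.L_jet (hg.rep c) (hK.rep c) (hh.rep c) (hk.rep c) (pt x)
  have r1 := fun {h k} (hh : Sym h) (hk : Sym k) => r hh hk c (pt x)
  simp only [pt, (ch x).left_inv (mem_ch x)] at r1
  refine ⟨?_, fun i => ?_, fun hx => ?_⟩
  · rw [(r1 (s hh hh') (s hk hk')).1, (r1 hh hk).1, (r1 hh' hk').1]
    exact ((L (s hh hh') (s hk hk')).1.trans (by
      rw [j, map_add, map_smul, map_smul, ← (L hh hk).1, ← (L hh' hk').1]; rfl))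
  · simp only [dmo, (der_mom hg hK (s hh hh') (s hk hk') _ _).deriv, (der_mom hg hK hh hk _ _).deriv,
      (der_mom hg hK hh' hk' _ _).deriv, (L (s hh hh') (s hk hk')).2, j, map_add, map_smul,
      ← (L hh hk).2, ← (L hh' hk').2, smul_eq_mul, add_mul, Finset.sum_add_distrib, mul_assoc,
      ← Finset.mul_sum]
    ring
  · have t := fun {h k} (hh : Sym h) (hk : Sym k) => (C.th_der (F := loc (ch x) F) (hg.rep c)
      (hK.sm _ c) (hh.sm _ c) (hk.sm _ c) hx).deriv
    rw [(r1 (s hh hh') (s hk hk')).2.2, (r1 hh hk).2.2, (r1 hh' hk').2.2]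
    refine (t (s hh hh') (s hk hk')).trans ?_
    rw [j, show ∀ u v : C.Jt n, ((a • u + b • v, 0) : C.Jt n × C.Jf n) = a • (u, 0) + b • (v, 0) from
      fun u v => by simp, map_add, map_smul, map_smul, ← t hh hk, ← t hh' hk']
    rfl

end Vale.Agent.P366K
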