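import Vale.Agent.P366K.Js

/-!
# P366K: the linearisation of the constraints
-/

set_option linter.all false

open Filter Topology Matrix
open scoped ContDiff
open Vale.Agent.P366.Stmt Vale.Agent.P366Z Vale.Agent.P366XR
open Vale.Agent.P366Y.C (rc Sy)

noncomputable section

namespace Vale.Agent.P366K.C

variable {n : ℕ} {G Q : ℝ → Field n} {g K h k : Field n} {x : E n}

/-- the variation of the Christoffel symbols -/
def Cc (g h : Field n) (k i j : Fin n) (y : E n) : ℝ :=
  ∑ l, up g k l y * ((cT g h i j l y + cT g h j i l y - cT g h l i j y) / 2)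

theorem sm_Cc (hg : Met g) (hh : Sm h) (k i j : Fin n) : Smooth (Cc g h k i j) :=
  ContDiff.sum fun l _ => (hg.sm_up k l).mul ((((sm_cT hg hh i j l).add (sm_cT hg hh j i l)).sub
    (sm_cT hg hh l i j)).div_const 2)

theorem Cc_sy (hh : Sy h) (k i j : Fin n) (y : E n) : Cc g h k i j y = Cc g h k j i y := by
  simp only [Cc, cT_sy g hh.sy _ i j, add_comm (cT g h i j _ y)]

theorem Fam.chr (H : Fam G g h) (hg : Met g) (hh : Sy h) (k i j : Fin n) :
    Dv (fun t => chr (G t) k i j) (chr g k i j) (Cc g h k i j) := by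
  refine ((Dv.sum fun l => (H.up hg k l).mul ((((H.dv j l).pd i).add ((H.dv i l).pd j)).sub
    ((H.dv i j).pd l))).div 2).congr (fun _ => rfl) fun y => ?_
  have e1 : ∀ l, pd i (fun y => g y j l) y + pd j (fun y => g y i l) y - pd l (fun y => g y i j) y =
      2 * (mat g y *ᵥ fun m => P366.Stmt.chr g m i j y) l := fun l => by
    rw [show (mat g y *ᵥ fun m => P366.Stmt.chr g m i j y) l = _ from hg.g_chr l i j y]
    ring
  have e2 : ∑ l, ((mat g y)⁻¹ * mat h y * (mat g y)⁻¹) k l *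
      (mat g y *ᵥ fun m => P366.Stmt.chr g m i j y) l =
      ∑ l, P366.Stmt.up g k l y * ∑ m, h y l m * P366.Stmt.chr g m i j y := by
    show (((mat g y)⁻¹ * mat h y * (mat g y)⁻¹) *ᵥ (mat g y *ᵥ _)) k =
      ((mat g y)⁻¹ *ᵥ (mat h y *ᵥ _)) k
    simp only [mulVec_mulVec, Matrix.mul_assoc, inv_mul hg, Matrix.mul_one]
  have e3 : ∀ l, (cT g h i j l y + cT g h j i l y - cT g h l i j y) / 2 =
      (pd i (fun y => h y j l) y + pd j (fun y => h y i l) y - pd l (fun y => h y i j) y) / 2 -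
        ∑ m, h y l m * P366.Stmt.chr g m i j y := fun l => by
    simp only [cT, Finset.sum_add_distrib, hg.chr_sy _ j i, hg.chr_sy _ l i, hg.chr_sy _ l j,
      hh.sy y _ l, hh.sy y _ j, mul_comm (h y l _)]
    ring
  simp only [Cc, e1, e3, mul_sub, Finset.sum_sub_distrib, Finset.sum_add_distrib, ← e2, neg_mul,
    Finset.sum_neg_distrib, mul_left_comm _ (2 : ℝ), ← Finset.mul_sum, ← mul_div_assoc,
    ← Finset.sum_div]
  ring

theorem tr_Cc (hg : Met g) (hh : Sy h) (j : Fin n) (y : E n) :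
    ∑ i, Cc g h i i j y = pd j (tr g h) y / 2 := by
  have e : ∑ i, ∑ l, up g i l y * cT g h l i j y = ∑ i, ∑ l, up g i l y * cT g h i j l y := by
    rw [Finset.sum_comm]
    exact Finset.sum_congr rfl fun a _ => Finset.sum_congr rfl fun b _ => by
      rw [hg.up_sy, cT_sy g hh.sy]
  rw [pd_tr hg hh.sm]
  simp only [Cc, ← mul_div_assoc, ← Finset.sum_div, mul_sub, mul_add, Finset.sum_sub_distrib,
    Finset.sum_add_distrib, e, add_sub_cancel_left, trace, diag, mul_apply, cM, of_apply,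
    cT_sy g hh.sy j]
  rfl

theorem up_Cc (hg : Met g) (hh : Sy h) (k : Fin n) (y : E n) :
    ∑ i, ∑ j, up g i j y * Cc g h k i j y =
      ∑ l, up g k l y * (dvT g h l y - pd l (tr g h) y / 2) := by
  have e1 : ∀ l, ∑ i, ∑ j, up g i j y * cT g h i j l y = dvT g h l y := fun l => by
    rw [Finset.sum_comm, dvT_cT]
    exact Finset.sum_congr rfl fun a _ => Finset.sum_congr rfl fun b _ => by rw [hg.up_sy]
  have e2 : ∀ l, ∑ i, ∑ j, up g i j y * cT g h l i j y = pd l (tr g h) y := fun l => by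
    rw [pd_tr hg hh.sm]
    simp only [trace, diag, mul_apply, cM, of_apply, cT_sy g hh.sy l]
    rfl
  simp only [Cc, Finset.mul_sum]
  rw [← P366P.rot3 fun l i j => up g i j y *
    (up g k l y * ((cT g h i j l y + cT g h j i l y - cT g h l i j y) / 2))]
  refine Finset.sum_congr rfl fun l _ => ?_
  simp only [mul_left_comm _ (up g k l y), ← Finset.mul_sum, ← mul_div_assoc, ← Finset.sum_div,
    mul_sub, mul_add, Finset.sum_sub_distrib, Finset.sum_add_distrib, e1, e2, ← dvT_cT]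
  ring

theorem scal_alg {ι : Type} [Fintype ι] {U : ι → ι → ℝ} {G C : ι → ι → ι → ℝ}
    {dC : ι → ι → ι → ι → ℝ} (hU : ∀ i j, U i j = U j i) (hG : ∀ k i j, G k i j = G k j i)
    (hC : ∀ k i j, C k i j = C k j i) (hd : ∀ l k i j, dC l k i j = dC l k j i) :
    ∑ i, ∑ j, U i j * ∑ k, (dC k k i j - dC j k i k + ∑ l, (C k k l * G l i j + G k k l * C l i j -
      (C k j l * G l i k + G k j l * C l i k))) =
    ∑ k, (∑ i, ∑ j, ((-∑ l, G i k l * U l j - ∑ l, G j k l * U i l) * C k i j + U i j * dC k k i j) -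
      ∑ j, ((-∑ l, G k k l * U l j - ∑ l, G j k l * U k l) * ∑ i, C i i j + U k j * ∑ i, dC k i i j) +
      ∑ l, G k k l * (∑ i, ∑ j, U i j * C l i j - ∑ j, U l j * ∑ i, C i i j)) := by
  have t1 : ∑ i, ∑ j, ∑ k, U i j * dC k k i j = ∑ k, ∑ i, ∑ j, U i j * dC k k i j :=
    (P366P.rot3 fun k i j => U i j * dC k k i j).symm
  have t2 : ∑ i, ∑ j, ∑ k, U i j * dC j k i k = ∑ k, ∑ j, ∑ i, U k j * dC k i i j :=
    p3 (fun (i, j, k) => (j, i, k)) (fun (j, i, k) => (i, j, k)) (fun _ => rfl) (fun _ => rfl)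
      fun (i, j, k) => by simp only [hU j i, hd j k i k]
  have t3 : ∑ i, ∑ j, ∑ k, ∑ l, U i j * (C k k l * G l i j) =
      ∑ k, ∑ j, ∑ i, ∑ l, G j k l * U k l * C i i j :=
    p4 (fun (i, j, k, l) => (i, l, k, j)) (fun (i, l, k, j) => (i, j, k, l)) (fun _ => rfl)
      (fun _ => rfl) fun (i, j, k, l) => by ring
  have t4 : ∑ i, ∑ j, ∑ k, ∑ l, U i j * (G k k l * C l i j) =
      ∑ k, ∑ l, ∑ i, ∑ j, G k k l * (U i j * C l i j) :=
    p4 (fun (i, j, k, l) => (k, l, i, j)) (fun (k, l, i, j) => (i, j, k, l)) (fun _ => rfl)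
      (fun _ => rfl) fun (i, j, k, l) => by ring
  have t5 : ∑ i, ∑ j, ∑ k, ∑ l, U i j * (C k j l * G l i k) =
      ∑ k, ∑ i, ∑ j, ∑ l, G i k l * U l j * C k i j :=
    p4 (fun (i, j, k, l) => (k, l, j, i)) (fun (k, l, j, i) => (i, j, k, l)) (fun _ => rfl)
      (fun _ => rfl) fun (i, j, k, l) => by simp only [hG l k i, hC k l j]; ring
  have t6 : ∑ i, ∑ j, ∑ k, ∑ l, U i j * (G k j l * C l i k) =
      ∑ k, ∑ i, ∑ j, ∑ l, G j k l * U i l * C k i j :=
    p4 (fun (i, j, k, l) => (l, i, k, j)) (fun (l, i, k, j) => (i, j, k, l)) (fun _ => rfl)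
      (fun _ => rfl) fun (i, j, k, l) => by simp only [hG k l j]; ring
  have t7 : ∑ k, ∑ j, ∑ i, ∑ l, G k k l * U l j * C i i j =
      ∑ k, ∑ l, ∑ j, ∑ i, G k k l * (U l j * C i i j) :=
    p4 (fun (k, j, i, l) => (k, l, j, i)) (fun (k, l, j, i) => (k, j, i, l)) (fun _ => rfl)
      (fun _ => rfl) fun (i, j, k, l) => by ring
  simp only [mul_add, mul_sub, sub_mul, neg_mul, Finset.mul_sum, Finset.sum_mul,
    Finset.sum_add_distrib, Finset.sum_sub_distrib, Finset.sum_neg_distrib]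
  linarith

theorem rs_mom (hg : Met g) (hh : Sy h) : rs g (mom g h) = fun k y =>
    ∑ i, ∑ j, up g i j y * Cc g h k i j y - ∑ j, up g k j y * ∑ i, Cc g h i i j y := by
  funext k y
  simp only [up_Cc hg hh, tr_Cc hg hh, rs, mom_eq hg hh.sm, ← Finset.sum_sub_distrib]
  exact Finset.sum_congr rfl fun _ _ => by ring

theorem neg_pr (hg : Met g) (A h : Field n) (y : E n) :
    ∑ i, ∑ j, -((mat g y)⁻¹ * mat h y * (mat g y)⁻¹) i j * A y i j = -pr g h A y := by
  rw [pr_eq, inv_sy hg]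
  simp only [trace, diag, mul_apply (N := (mat A y)ᵀ), transpose_apply, neg_mul,
    Finset.sum_neg_distrib]
  rfl

theorem Fam.scal (H : Fam G g h) (hg : Met g) (hh : Sy h) :
    Dv (fun t => scal (G t)) (scal g) fun y =>
      P366Z.dv g (rs g (mom g h)) y - pr g (rc g) h y := by
  have c := H.chr hg hh
  refine (Dv.sum fun i => Dv.sum fun j => (H.up hg i j).mul (Dv.sum fun k =>
    (((c k i j).pd k).sub ((c k i k).pd j)).add (Dv.sum fun l =>
      ((c k k l).mul (c l i j)).sub ((c k j l).mul (c l i k))))).congr (fun _ => rfl) fun y => ?_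
  have d := fun k i j => (sm_Cc hg hh.sm k i j).diff y
  have u := fun i j => (hg.sm_up i j).diff y
  have d1 := fun k i j => (u i j).fun_mul (d k i j)
  have d2 : ∀ j, DifferentiableAt ℝ (fun y => ∑ i, Cc g h i i j y) y := fun j =>
    DifferentiableAt.fun_sum fun i _ => d i i j
  have d3 : ∀ k i, DifferentiableAt ℝ (fun y => ∑ j, P366.Stmt.up g i j y * Cc g h k i j y) y :=
    fun k i => DifferentiableAt.fun_sum fun j _ => d1 k i j
  have e : ∀ i j, ∑ k, (pd k (P366.Stmt.chr g k i j) y - pd j (P366.Stmt.chr g k i k) y +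
      ∑ l, (P366.Stmt.chr g k k l y * P366.Stmt.chr g l i j y -
        P366.Stmt.chr g k j l y * P366.Stmt.chr g l i k y)) = rc g y i j := fun i j => by
    rw [show rc g y i j = rc g y j i from congrFun (congrFun (rc_sy hg y) j) i]
    simp only [rc, Finset.sum_add_distrib, Finset.sum_sub_distrib,
      show ∀ k, P366.Stmt.chr g k i j = P366.Stmt.chr g k j i from fun k => funext (hg.chr_sy k i j),
      show ∀ k, P366.Stmt.chr g k i k = P366.Stmt.chr g k k i from fun k => funext (hg.chr_sy k i k)]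
    rw [Finset.sum_comm (f := fun a b => P366.Stmt.chr g b a j y * P366.Stmt.chr g a b i y)]
    exact congrArg _ (congrArg _ (Finset.sum_congr rfl fun a _ => Finset.sum_congr rfl fun b _ => by
      rw [hg.chr_sy a j, hg.chr_sy b i]))
  simp only [e, Finset.sum_add_distrib (f := fun j =>
    -((mat g y)⁻¹ * mat h y * (mat g y)⁻¹) _ j * rc g y _ j), Finset.sum_add_distrib (f := fun i =>
    ∑ j, -((mat g y)⁻¹ * mat h y * (mat g y)⁻¹) i j * rc g y i j)]
  rw [neg_pr hg, pr_comm hg, hg.dv_chr fun i => (sm_rs hg (sm_mom hg hh.sm) i).diff y, rs_mom hg hh,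
    scal_alg (U := fun i j => P366.Stmt.up g i j y) (G := fun k i j => P366.Stmt.chr g k i j y)
      (C := fun k i j => Cc g h k i j y) (dC := fun l k i j => pd l (Cc g h k i j) y)
      (fun i j => hg.up_sy i j y) (fun k i j => hg.chr_sy k i j y) (fun k i j => Cc_sy hh k i j y)
      fun l k i j => by rw [funext (Cc_sy hh k i j)]]
  simp only [pd_sub (DifferentiableAt.fun_sum fun i _ => d3 _ i)
    (DifferentiableAt.fun_sum fun j _ => (u _ j).fun_mul (d2 j)), pd_sum _ fun i _ => d3 _ i,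
    pd_sum _ fun j _ => d1 _ _ j, pd_sum _ fun j _ => (u _ j).fun_mul (d2 j), pd_mul (u _ _) (d _ _ _),
    pd_mul (u _ _) (d2 _), pd_sum _ fun i _ => d i i _, hg.pd_up]
  ring

theorem Fam.tr (H : Fam G g h) (hg : Met g) (H' : Fam Q K k) :
    Dv (fun t => tr (G t) (Q t)) (tr g K) fun y => P366.Stmt.tr g k y - pr g h K y := by
  refine (Dv.sum fun i => Dv.sum fun j => (H.up hg i j).mul (H'.dv i j)).congr (fun _ => rfl)
    fun y => ?_
  simp only [Finset.sum_add_distrib]
  rw [neg_pr hg, neg_add_eq_sub]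
  rfl

theorem q4 (U V A B : Mx n) :
    ∑ i, ∑ j, ∑ k, ∑ l, U i k * V j l * A i j * B k l = trace (Uᵀ * A * V * Bᵀ) := by
  simp only [trace, diag, mul_apply, transpose_apply, Finset.sum_mul]
  exact p4 (fun (i, j, k, l) => (k, l, j, i)) (fun (k, l, j, i) => (i, j, k, l)) (fun _ => rfl)
    (fun _ => rfl) fun (i, j, k, l) => by ring

theorem sy_mat {T : Field n} (hT : Sy T) (x : E n) : (mat T x)ᵀ = mat T x :=
  Matrix.ext fun i j => hT.sy x j i

theorem Fam.nsq (H : Fam G g h) (hg : Met g) (H' : Fam Q K k) (hK : Sy K) (hh : Sy h) (hk : Sy k) :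
    Dv (fun t => normSq (G t) (Q t)) (normSq g K) fun y =>
      2 * pr g K k y - 2 * pr g (ml g K K) h y := by
  refine (Dv.sum fun i => Dv.sum fun j => Dv.sum fun a => Dv.sum fun b =>
    (((H.up hg i a).mul (H.up hg j b)).mul (H'.dv i j)).mul (H'.dv a b)).congr (fun _ => rfl)
      fun y => ?_
  simp only [add_mul, Finset.sum_add_distrib]
  have e1 := q4 (-((mat g y)⁻¹ * mat h y * (mat g y)⁻¹)) (mat g y)⁻¹ (mat K y) (mat K y)
  have e2 := q4 (mat g y)⁻¹ (-((mat g y)⁻¹ * mat h y * (mat g y)⁻¹)) (mat K y) (mat K y)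
  have e3 : pr g k K y = pr g K k y := pr_comm hg _ _ _
  have e4 : pr g (ml g K K) h y =
      trace ((mat g y)⁻¹ * (mat h y * ((mat g y)⁻¹ * (mat K y * ((mat g y)⁻¹ * mat K y))))) := by
    rw [pr_comm hg, pr_eq, mat_ml]
    simp only [transpose_mul, inv_sy hg, sy_mat hK, Matrix.mul_assoc]
  simp only [transpose_neg, transpose_mul, inv_sy hg, sy_mat hK, sy_mat hh, Matrix.neg_mul,
    Matrix.mul_neg, trace_neg, Matrix.mul_assoc] at e1 e2
  rw [← Matrix.mul_assoc _ (mat K y), trace_mul_comm] at e2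
  simp only [Matrix.mul_assoc] at e2
  rw [← e4] at e1 e2
  simp only [← Matrix.mul_assoc] at e1 e2
  exact (congrArg₂ _ (congrArg₂ _ (congrArg₂ _ e1 e2) e3) rfl).trans
    (show _ + pr g K k y = _ by ring)

theorem pr_momT (hg : Met g) (K : Field n) (hk : Sy k) (y : E n) :
    pr g (momT g K) k y = pr g K k y - tr g K y * tr g k y := by
  rw [pr_tr hg _ (hk.sy y), pr_tr hg _ (hk.sy y), tr_eq hg k,
    show mat (momT g K) y = mat K y - tr g K y • mat g y from rfl]
  simp only [Matrix.mul_sub, Matrix.sub_mul, Matrix.mul_smul, Matrix.smul_mul, inv_mul hg,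
    Matrix.one_mul, trace_sub, trace_smul, smul_eq_mul]

theorem Fam.mu (H : Fam G g h) (hg : Met g) (H' : Fam Q K k) (hK : Sy K) (hh : Sy h) (hk : Sy k) :
    Dv (fun t => mu (G t) (Q t)) (mu g K) (Lmu g K h k) := by
  have e : (fun t => P366.Stmt.mu (G t) (Q t)) = fun t y => (P366.Stmt.scal (G t) y +
      P366.Stmt.tr (G t) (Q t) y * P366.Stmt.tr (G t) (Q t) y - normSq (G t) (Q t) y) / 2 := by
    funext t y
    rw [P366.Stmt.mu, sq]
  rw [e]
  refine ((((H.scal hg hh).add ((H.tr hg H').mul (H.tr hg H'))).sub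
    (H.nsq hg H' hK hh hk)).div 2).congr (fun y => by rw [P366.Stmt.mu, sq]) fun y => ?_
  rw [Lmu, pr_momT hg K hk, pr_comm hg h K]
  ring

/-- the variation of `π` -/
def dpi (g K h k : Field n) : Field n := fun y i j =>
  momT g k y i j + pr g K h y * g y i j - tr g K y * h y i j

theorem Fam.momT (H : Fam G g h) (hg : Met g) (H' : Fam Q K k) (i j : Fin n) :
    Dv (fun t y => momT (G t) (Q t) y i j) (fun y => momT g K y i j) fun y => dpi g K h k y i j :=
  ((H'.dv i j).sub ((H.tr hg H').mul (H.dv i j))).congr (fun _ => rfl) fun y => by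
    simp only [dpi, P366.Stmt.momT, pr_comm hg h K]
    ring

theorem Fam.mom (H : Fam G g h) (hg : Met g) (H' : Fam Q K k) (hK : Sy K) (hh : Sy h) (hk : Sy k)
    (j : Fin n) : Dv (fun t => mom (G t) (Q t) j) (mom g K j) (Lmom g K h k j) := by
  have c := H.chr hg hh
  have m := H.momT hg H'
  refine (Dv.sum fun i => Dv.sum fun a => (H.up hg i a).mul (((m i j).pd a).sub (Dv.sum fun l =>
    ((c l a i).mul (m l j)).add ((c l a j).mul (m i l))))).congr (fun _ => rfl) fun y => ?_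
  have hp := sy_momT hg hK
  set p := P366.Stmt.momT g K with hpd
  have s1 := sm_pr hg hK.sm hh.sm
  have s2 := sm_pr hg hp.sm hh.sm
  have s3 := sm_tr hg hh.sm
  have s4 : Sm (dpi g K h k) := fun a b => ContDiff.sub (ContDiff.add (sm_momT hg hk.sm a b)
    (s1.mul (hg.sm a b))) ((sm_tr hg hK.sm).mul (hh.sm a b))
  have s5 := sm_ml hg hh.sm hp.sm
  have s6 : Sm fun y a b => P366.Stmt.tr g h y / 2 * p y a b := fun a b =>
    (s3.div_const 2).mul (hp.sm a b)
  have s7 : Sm fun y a b => pr g p h y / 2 * g y a b := fun a b => (s2.div_const 2).mul (hg.sm a b)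
  have w : Wt g K h k = fun y a b => dpi g K h k y a b - ml g h p y a b +
      P366.Stmt.tr g h y / 2 * p y a b - pr g p h y / 2 * g y a b := by
    funext y a b
    simp only [Wt, dpi, ← hpd]
    ring
  have hd : ∀ {f : E n → ℝ}, Smooth f → ∀ a, pd a (fun y => f y / 2) y = pd a f y / 2 :=
    fun _ a => by simp only [div_eq_mul_inv, pd_mul_const]
  have e0 : P366.Stmt.mom g K j y = dvT g p j y := rfl
  have e1 : ∑ i, ∑ a, -((mat g y)⁻¹ * mat h y * (mat g y)⁻¹) i a * cT g p a i j y =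
      -∑ a, ((mat g y)⁻¹ * mat h y * (mat g y)⁻¹ * cM g p a y) a j := by
    have : ((mat g y)⁻¹ * mat h y * (mat g y)⁻¹)ᵀ = (mat g y)⁻¹ * mat h y * (mat g y)⁻¹ := by
      simp only [transpose_mul, inv_sy hg, sy_mat hh, Matrix.mul_assoc]
    rw [Finset.sum_comm]
    simp only [neg_mul, Finset.sum_neg_distrib, mul_apply (N := cM g p _ y)]
    exact congrArg _ (Finset.sum_congr rfl fun a _ => Finset.sum_congr rfl fun i _ =>
      congrArg₂ _ (congrFun (congrFun this a) i) rfl)
  have e2 : ∑ i, ∑ a, ∑ l, P366.Stmt.up g i a y * (Cc g h l a i y * p y l j) =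
      ∑ a, ∑ b, dvT g h a y * P366.Stmt.up g a b y * p y b j -
        ∑ i, ∑ a, P366.Stmt.up g i a y * (pd a (P366.Stmt.tr g h) y / 2 * p y i j) := by
    rw [← P366P.rot3 fun l i a => P366.Stmt.up g i a y * (Cc g h l a i y * p y l j),
      Finset.sum_comm (f := fun a b => dvT g h a y * P366.Stmt.up g a b y * p y b j),
      ← Finset.sum_sub_distrib]
    refine Finset.sum_congr rfl fun l _ => ?_
    have := congrArg (· * p y l j) (up_Cc hg hh l y)
    simp only [Finset.sum_mul, mul_sub, sub_mul, Finset.sum_sub_distrib] at this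
    simp only [hg.up_sy _ l y, mul_comm (dvT g h _ y), ← mul_assoc, ← this]
    exact Finset.sum_congr rfl fun a _ => Finset.sum_congr rfl fun b _ => by rw [Cc_sy hh]
  have e3 : ∑ i, ∑ a, ∑ l, P366.Stmt.up g i a y * (Cc g h l a j y * p y i l) =
      trace ((mat g y)⁻¹ * mat p y * (mat g y)⁻¹ * cM g h j y) / 2 := by
    have t1 : ∑ i, ∑ a, ∑ l, ∑ m, P366.Stmt.up g i a y * P366.Stmt.up g l m y * p y i l *
        cT g h a j m y = ∑ i, ∑ a, ∑ l, ∑ m, P366.Stmt.up g i a y * P366.Stmt.up g l m y *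
          p y i l * cT g h m a j y :=
      p4 (fun (i, a, l, m) => (l, m, i, a)) (fun (l, m, i, a) => (i, a, l, m)) (fun _ => rfl)
        (fun _ => rfl) fun (i, a, l, m) => by
          simp only [hp.sy y l i, cT_sy g hh.sy a m j]
          ring
    have t2 : ∑ i, ∑ l, ∑ a, ∑ m, P366.Stmt.up g i a y * P366.Stmt.up g l m y * p y i l *
        cT g h j a m y = trace ((mat g y)⁻¹ * mat p y * (mat g y)⁻¹ * cM g h j y) := by
      have := q4 (mat g y)⁻¹ (mat g y)⁻¹ (mat p y) (cM g h j y)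
      rw [inv_sy hg, show (cM g h j y)ᵀ = cM g h j y from
        Matrix.ext fun a b => cT_sy g hh.sy j b a y] at this
      exact this
    have t3 : ∀ i a l, P366.Stmt.up g i a y * (Cc g h l a j y * p y i l) =
        (∑ m, P366.Stmt.up g i a y * P366.Stmt.up g l m y * p y i l * cT g h a j m y +
          ∑ m, P366.Stmt.up g i a y * P366.Stmt.up g l m y * p y i l * cT g h j a m y -
          ∑ m, P366.Stmt.up g i a y * P366.Stmt.up g l m y * p y i l * cT g h m a j y) / 2 := by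
      intro i a l
      simp only [Cc, Finset.sum_mul, Finset.mul_sum, ← Finset.sum_add_distrib,
        ← Finset.sum_sub_distrib, Finset.sum_div]
      exact Finset.sum_congr rfl fun _ _ => by ring
    rw [← t2, P366P.swp3 fun i l a => ∑ m, P366.Stmt.up g i a y * P366.Stmt.up g l m y * p y i l *
      cT g h j a m y]
    simp only [t3, ← Finset.sum_div, Finset.sum_sub_distrib, Finset.sum_add_distrib, t1]
    ring
  have e4 : pr g h (fun y a b => cT g p j a b y) y =
      trace ((mat g y)⁻¹ * cM g p j y * (mat g y)⁻¹ * mat h y) := by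
    rw [pr_comm hg, pr_tr hg _ (hh.sy y)]
    rfl
  rw [Lmom, w, dvT_sub g (fun a b => ((s4 a b).sub (s5 a b)).add (s6 a b)) s7,
    dvT_add g (fun a b => (s4 a b).sub (s5 a b)) s6, dvT_sub g s4 s5, dvT_ml hg hh.sm hp.sm,
    dvT_smul g ((s3.div_const 2).differentiable (by simp) y) hp.sm,
    dvT_fg hg ((s2.div_const 2).differentiable (by simp) y), hd s2, pd_pr hg hp.sm hh, e4, e0,
    dvT_cT g (dpi g K h k)]
  simp only [hd s3]
  simp only [cT, Finset.sum_add_distrib, Finset.sum_sub_distrib, mul_sub, mul_add,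
    Finset.mul_sum] at e1 ⊢
  linarith

theorem lin : LIN := fun _ _ _ _ _ _ _ x hg hK hh hk H H' =>
  ⟨(H.mu hg H' hK hh hk).der x, fun j => (H.mom hg H' hK hh hk j).der x⟩

end Vale.Agent.P366K.C
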