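import Vale.Agent.P366K.Bd
import Vale.Agent.P366CL.NDefs

/-!
# P366K: the deformed data satisfy the dominant energy condition
-/

set_option linter.all false

open Filter Topology Matrix Set Metric
open scoped ContDiff
open Vale.Agent.P366

noncomputable section

namespace Vale.Agent.P366K

namespace C

variable {n : ℕ}

abbrev Pv (n : ℕ) := Jt n × Jt n × (Fin n → ℝ)

def Av (p : Pv n) (i : Fin n) : ℝ := ∑ a, jU p.1 i a * ∑ b, (p.1.1 a b - p.2.1.1 a b / 2) * p.2.2 b
def Qv (p : Pv n) : ℝ := ∑ i, ∑ j, (p.1 + p.2.1).1 i j * Av p i * Av p j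
def Gv (p : Pv n) : ℝ := jmu (p.1 + p.2.1) * √(Qv p) + ∑ b, jmo (p.1 + p.2.1) b * Av p b

theorem cd_Gv {j : Jt n} {e : Fin n → ℝ} (hj : Ps j.1) (he : ∑ a, ∑ b, j.1 a b * e a * e b = 1) :
    ContDiffAt ℝ ∞ Gv (j, 0, e) := by
  have d := ps_det hj
  have hA : ∀ i, ContDiffAt ℝ ∞ (fun p : Pv n => Av p i) (j, 0, e) := fun i =>
    ContDiffAt.sum fun a _ => ((cd_jU d i a).comp (j, 0, e) contDiffAt_fst).mul (by fun_prop)
  have h0 : ∀ i, Av (j, 0, e) i = e i := fun i => by
    have : ((of j.1)⁻¹ *ᵥ (of j.1 *ᵥ e)) i = e i := by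
      rw [mulVec_mulVec, nonsing_inv_mul _ (isUnit_iff_ne_zero.2 d), one_mulVec]
    simp only [Av, Prod.fst_zero, Pi.zero_apply, zero_div, sub_zero]
    exact this
  have hQ : ContDiffAt ℝ ∞ Qv (j, 0, e) := ContDiffAt.sum fun a _ => ContDiffAt.sum fun b _ =>
    (ContDiffAt.mul (by fun_prop) (hA a)).mul (hA b)
  have s : ContDiffAt ℝ ∞ (fun p : Pv n => p.1 + p.2.1) (j, 0, e) := by fun_prop
  have d' : (of (j + 0).1).det ≠ 0 := by rwa [add_zero]
  exact (((cd_jmu d').comp (j, 0, e) s).mul (hQ.sqrt (by simp [Qv, h0, he]))).add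
    (ContDiffAt.sum fun b _ => ((cd_jmo d' b).comp (j, 0, e) s).mul (hA b))

theorem unit_bd {S : Set (T2 n)} (hS : IsCompact S) (h1 : ∀ A ∈ S, Ps A) :
    ∃ B, ∀ A ∈ S, ∀ e : Fin n → ℝ, ∑ a, ∑ b, A a b * e a * e b = 1 → ‖e‖ ≤ B := by
  obtain ⟨δ, h0, hδ⟩ := hS.exists_cthickening_subset_open ps_open h1
  refine ⟨√(1 / δ), fun A hA e he => (pi_norm_le_iff_of_nonneg (Real.sqrt_nonneg _)).2 fun i => ?_⟩
  have := hδ (closedBall_subset_cthickening hA δ (a := fun a b => A a b - if a = b then δ else 0)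
    (mem_closedBall_iff_norm.2 ((pi_norm_le_iff_of_nonneg h0.le).2 fun a =>
      (pi_norm_le_iff_of_nonneg h0.le).2 fun b => by
        by_cases h : a = b <;> simp [h, abs_of_pos h0, h0.le]))) e (by rintro rfl; simp at he)
  simp only [sub_mul, Finset.sum_sub_distrib, he, ite_mul, zero_mul, Finset.sum_ite_eq,
    Finset.mem_univ, if_true, mul_assoc, ← Finset.mul_sum] at this
  have h2 := Finset.single_le_sum (f := fun a => e a * e a) (fun a _ => mul_self_nonneg _)
    (Finset.mem_univ i)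
  refine Real.abs_le_sqrt ?_
  rw [le_div_iff₀ h0]
  simp only [← mul_assoc, he] at this
  nlinarith

end C

open Vale.Agent.P366M
open Vale.Agent.P366MM (sq)
open Vale.Agent.P366.Stmt (E BigO)

variable {n : ℕ} {M : Type} [Mfe n M] {g K h k : Fld n M}

/-- the transported vector -/
def At_ (g h : Fld n M) (x : M) (e : Fin n → ℝ) (t : ℝ) (i : Fin n) : ℝ :=
  ∑ a, up g i a x * ∑ b, (g x a b - t * h x a b / 2) * e b

/-- the energy seen by the transported null vector -/
def Gt (g K h k : Fld n M) (x : M) (e : Fin n → ℝ) (t : ℝ) : ℝ :=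
  mu (fam g h t) (fam K k t) x * √(sq (fam g h t) x (At_ g h x e t)) +
    ∑ b, mom (fam g h t) (fam K k t) b x * At_ g h x e t b

theorem Gv_eq (hg : SmT g) (hK : SmT K) (hh : SmT h) (hk : SmT k) {t : ℝ} (ht : Met (fam g h t))
    (x : M) (e : Fin n → ℝ) : C.Gv ((jM g K x, 0, e) + t • (0, jM h k x, 0)) =
      rr (px x) ^ 2 * Gt g K h k x e t := by
  have c := ch_mem x
  have e1 : jM g K x + t • jM h k x = jM (fam g h t) (fam K k t) x := by
    rw [jM, jM, jM, rep_fam, rep_fam, C.jet_fam (hg _ c) (hK _ c) (hh _ c) (hk _ c), map_add,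
      map_smul]
  have e2 := C.con_jet (ht.sm _ c) (smT_fam hK hk t _ c) ((ht.rep c).det_pos (pt x)).ne'
  have e3 := C.sc_con (rr (px x)) (C.jet (rep (ch x) (fam g h t)) (rep (ch x) (fam K k t)) (pt x))
  have eA : C.Av (jM g K x, t • jM h k x, e) = At_ g h x e t := by
    funext i
    simp only [C.Av, C.jU, Prod.smul_fst, jM_fst, Pi.smul_apply, smul_eq_mul]
    rfl
  simp only [Prod.smul_mk, Prod.mk_add_mk, smul_zero, add_zero, zero_add, C.Gv, C.Qv, eA, e1, jM_fst]
  rw [Gt, mul_add, Finset.mul_sum]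
  simp only [jM, e3.1, e3.2, ← e2.1, ← e2.2, mu_pt, ← mul_assoc]
  rfl

theorem At_zero (hg : Met g) (h : Fld n M) (x : M) (e : Fin n → ℝ) : At_ g h x e 0 = e := by
  funext i
  simpa [At_] using hg.up_g_mul x i e

theorem Gt_der (hg : Met g) (hK : Sym K) (hh : Sym h) (hk : Sym k) (x : M) {e : Fin n → ℝ}
    (he : sq g x e = 1) : Gt g K h k x e 0 = en g K x e ∧
      HasDerivAt (Gt g K h k x e) (lin g K h k x e) 0 := by
  have f0 : ∀ g h : Fld n M, fam g h 0 = g := fun g h => by funext x i j; simp [fam]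
  have c := ch_mem x
  have a0 := At_zero hg h x e
  have d1 : HasDerivAt (fun t => mu (fam g h t) (fam K k t) x) (dmu g K h k x) 0 := by
    refine DifferentiableAt.hasDerivAt ?_
    simpa only [← mu_pt, rep_fam] using (C.lin n _ _ _ _ _ _ (pt x) (hg.rep c) (hK.rep c) (hh.rep c)
      (hk.rep c) (C.fam_lin (hg.sm _ c) (hh.sm _ c))
        (C.fam_lin (hK.sm _ c) (hk.sm _ c))).1.differentiableAt
  have d2 : ∀ i, HasDerivAt (fun t => At_ g h x e t i)
      (-(∑ a, up g i a x * ∑ b, h x a b * e b) / 2) 0 := fun i =>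
    (HasDerivAt.fun_sum fun a _ => (HasDerivAt.fun_sum fun b _ => ((((hasDerivAt_id
      (0 : ℝ)).mul_const (h x a b)).div_const 2).const_sub (g x a b)).mul_const (e b)).const_mul
        (up g i a x)).congr_deriv (by
          simp only [one_mul, neg_mul, Finset.sum_neg_distrib, mul_neg, div_mul_eq_mul_div,
            ← Finset.sum_div, ← mul_div_assoc, neg_div])
  have gu : ∀ a, ∑ i, g x a i * ∑ b, up g i b x * ∑ c, h x b c * e c = ∑ c, h x a c * e c :=
    fun a => hg.g_up_mul x a fun b => ∑ c, h x b c * e c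
  have d3 : HasDerivAt (fun t => sq (fam g h t) x (At_ g h x e t)) 0 0 := by
    refine (HasDerivAt.fun_sum fun i _ => HasDerivAt.fun_sum fun j _ => (((((hasDerivAt_id
      (0 : ℝ)).mul_const (h x i j)).const_add (g x i j)).fun_mul (d2 i)).fun_mul
        (d2 j))).congr_deriv ?_
    have t1 : ∑ i, ∑ j, g x i j * (∑ a, up g i a x * ∑ b, h x a b * e b) * e j =
        ∑ i, ∑ j, h x i j * e i * e j := by
      rw [Finset.sum_comm]
      refine Finset.sum_congr rfl fun j _ => ?_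
      simp only [← Finset.sum_mul, hg.sy x _ j, gu]
      simp only [Finset.sum_mul, mul_right_comm]
    have t2 : ∑ i, ∑ j, g x i j * e i * (∑ a, up g j a x * ∑ b, h x a b * e b) =
        ∑ i, ∑ j, h x i j * e i * e j := by
      refine Finset.sum_congr rfl fun i _ => ?_
      simp only [mul_right_comm _ (e i), ← Finset.sum_mul, gu]
    simp only [a0, id, zero_mul, add_zero, one_mul, add_mul, Finset.sum_add_distrib, neg_div,
      mul_neg, neg_mul, ← mul_div_assoc, div_mul_eq_mul_div, Finset.sum_neg_distrib,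
      ← Finset.sum_div, t1, t2]
    ring
  have q : sq (fam g h 0) x (At_ g h x e 0) = 1 := by rw [f0, a0, he]
  refine ⟨by simp only [Gt, he, f0, a0, Real.sqrt_one, mul_one, en], ?_⟩
  refine ((d1.fun_mul (d3.sqrt (q ▸ one_ne_zero))).fun_add (HasDerivAt.fun_sum fun b _ =>
    (der_mom hg hK hh hk b x).fun_mul (d2 b))).congr_deriv ?_
  have t3 : ∑ b, mom g K b x * ∑ a, up g b a x * ∑ c, h x a c * e c =
      ∑ c, (∑ a, h x c a * ∑ b, up g a b x * mom g K b x) * e c := by
    simp only [Finset.mul_sum, Finset.sum_mul]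
    exact C.p3 (fun (b, a, c) => (c, a, b)) (fun (c, a, b) => (b, a, c)) (fun _ => rfl)
      (fun _ => rfl) fun (b, a, c) => by simp only [hh.sy x c a, hg.up_sy a b]; ring
  simp only [he, f0, a0, Real.sqrt_one, mul_one, zero_div, mul_zero, add_zero, lin, dmo,
    (der_mom hg hK hh hk _ _).deriv, Finset.sum_add_distrib, neg_div, mul_neg, ← mul_div_assoc,
    Finset.sum_neg_distrib, ← Finset.sum_div, t3, sub_mul, Finset.sum_sub_distrib,
    div_mul_eq_mul_div]
  ring

theorem dec_of (hg : Met g) {t : ℝ} (h1 : Met (fam g h t)) (h2 : Met (fam g h (-t / 2))) (x : M)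
    (i0 : Fin n) (H : ∀ e, sq g x e = 1 → 0 ≤ Gt g K h k x e t) :
    covNorm (fam g h t) (mom (fam g h t) (fam K k t)) x ≤ mu (fam g h t) (fam K k t) x := by
  have key : ∀ v : Fin n → ℝ, v ≠ 0 → 0 ≤ mu (fam g h t) (fam K k t) x * √(sq (fam g h t) x v) +
      ∑ b, mom (fam g h t) (fam K k t) b x * v b := fun v hv => by
    have u1 := isUnit_iff_ne_zero.2 (hg.pos x).det_pos.ne'
    have u2 := isUnit_iff_ne_zero.2 (h2.pos x).det_pos.ne'
    obtain ⟨w, e⟩ : ∃ w, (mat g x)⁻¹ *ᵥ (mat (fam g h (-t / 2)) x *ᵥ w) = v :=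
      ⟨(mat (fam g h (-t / 2)) x)⁻¹ *ᵥ (mat g x *ᵥ v), by
        simp only [mulVec_mulVec, ← Matrix.mul_assoc, Matrix.mul_nonsing_inv_cancel_right _ _ u2,
          nonsing_inv_mul _ u1, one_mulVec]⟩
    have hw : w ≠ 0 := fun h => hv (by rw [← e, h, mulVec_zero, mulVec_zero])
    have p0 : 0 < sq g x w := hg.g_pos x hw
    have p := Real.sqrt_pos.2 p0
    have sm : ∀ (T : Fld n M) (c : ℝ) u, sq T x (c • u) = c ^ 2 * sq T x u := fun T c u => by
      simp only [P366MM.sq, Finset.mul_sum, Pi.smul_apply, smul_eq_mul]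
      exact Finset.sum_congr rfl fun _ _ => Finset.sum_congr rfl fun _ _ => by ring
    have := H ((√(sq g x w))⁻¹ • w) (by
      rw [sm, inv_pow, Real.sq_sqrt p0.le]
      exact inv_mul_cancel₀ p0.ne')
    have a : At_ g h x ((√(sq g x w))⁻¹ • w) t = (√(sq g x w))⁻¹ • v := by
      rw [← e, ← mulVec_smul, ← mulVec_smul]
      funext i
      simp only [At_, mulVec, dotProduct, mat, fam, up, sub_eq_add_neg, neg_div, neg_mul,
        div_mul_eq_mul_div]
    rw [Gt, a, sm, Real.sqrt_mul (sq_nonneg _), Real.sqrt_sq (inv_nonneg.2 p.le)] at this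
    simp only [Pi.smul_apply, smul_eq_mul, mul_left_comm _ (√(sq g x w))⁻¹, ← Finset.mul_sum,
      ← mul_add] at this
    exact nonneg_of_mul_nonneg_right this (inv_pos.2 p)
  set J := fun b => mom (fam g h t) (fam K k t) b x
  by_cases hJ : J = 0
  · have := key (Pi.single i0 1) (by simp)
    have p := Real.sqrt_pos.2 (h1.g_pos x (ξ := Pi.single i0 1) (by simp))
    simp only [covNorm, show ∀ b, mom (fam g h t) (fam K k t) b x = 0 from congrFun hJ, mul_zero,
      zero_mul, Finset.sum_const_zero, Real.sqrt_zero, add_zero] at this ⊢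
    exact nonneg_of_mul_nonneg_left this p
  have u := isUnit_iff_ne_zero.2 (h1.pos x).det_pos.ne'
  have p := h1.up_pos x hJ
  have e1 : ∑ b, J b * (-((mat (fam g h t) x)⁻¹ *ᵥ J)) b =
      -∑ i, ∑ j, up (fam g h t) i j x * J i * J j := by
    rw [show ∑ i, ∑ j, up (fam g h t) i j x * J i * J j = _ from quad_dot _ J J, ← dotProduct_neg]
    rfl
  have e2 : sq (fam g h t) x (-((mat (fam g h t) x)⁻¹ *ᵥ J)) =
      ∑ i, ∑ j, up (fam g h t) i j x * J i * J j := by
    rw [show ∑ i, ∑ j, up (fam g h t) i j x * J i * J j = _ from quad_dot _ J J,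
      show sq (fam g h t) x _ = _ from quad_dot (mat (fam g h t) x) _ _, mulVec_neg, neg_dotProduct_neg,
      mulVec_mulVec, mul_nonsing_inv _ u, one_mulVec, dotProduct_comm]
    rfl
  have := key (-((mat (fam g h t) x)⁻¹ *ᵥ J)) fun h => by
    rw [h] at e1
    simp at e1
    linarith
  rw [e2] at this
  have s := Real.mul_self_sqrt p.le
  exact le_of_mul_le_mul_right (by rw [covNorm]; linarith) (Real.sqrt_pos.2 p)

theorem nd : P366CL.ND := by
  intro n M _ D ε χ c dE h k dP hn af dec V hε hc H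
  have n3 : (3 : ℝ) ≤ n := by exact_mod_cast hn
  have hK : Sym D.K := ⟨D.smK, D.syK⟩
  obtain ⟨S, hS, h1, h2⟩ := g_cpt hn af
  obtain ⟨B1, b1⟩ := V.bd hn
  obtain ⟨B2, b2⟩ := C.unit_bd hS h1
  obtain ⟨B3, b3⟩ : ∃ C, ∀ x : M, rr (px x) ^ (0 : ℝ) * ‖jM D.g D.K x‖ ≤ C := by
    obtain ⟨q, hq, af⟩ := af
    refine jet_bd le_rfl D.met.sm D.smK fun i j a b => ⟨?_, bo_mono (af i j a b).2.1 (by linarith),
      bo_mono (af i j a b).2.2.1 (by linarith), bo_mono (af i j a b).2.2.2.1 (by linarith),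
      bo_mono (af i j a b).2.2.2.2 (by linarith)⟩
    obtain ⟨B, hB⟩ := hS.exists_bound_of_continuousOn (f := id) continuousOn_id
    exact ⟨B, 0, fun y _ => by
      simpa [fe] using (norm_le_pi_norm _ j).trans ((norm_le_pi_norm _ i).trans (hB _ (h2 (yp y))))⟩
  have : FiniteDimensional ℝ (C.Jt n) := inferInstance
  have : FiniteDimensional ℝ (C.Jt n × (Fin n → ℝ)) := inferInstance
  have : FiniteDimensional ℝ (C.Pv n) := Module.Finite.prod
  obtain ⟨δ, δ0, B, tay⟩ := C.tay (Φ := C.Gv) (S := {p : C.Pv n | p.1.1 ∈ S ∧ p.2.1 = 0 ∧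
      ∑ a, ∑ b, p.1.1 a b * p.2.2 a * p.2.2 b = 1} ∩ closedBall 0 (max B3 (max 0 B2)))
    ((isCompact_closedBall _ _).inter_left ((hS.isClosed.preimage (by fun_prop)).inter
      ((isClosed_eq (by fun_prop) continuous_const).inter (isClosed_eq (by fun_prop)
        continuous_const)))) (by
      rintro ⟨j, _, e⟩ ⟨⟨a, rfl, b⟩, -⟩
      exact (C.cd_Gv (h1 _ a) b).of_le (by decide))
  have m := met_fam hn af V
  have c1 : ContinuousAt (fun t : ℝ => -t / 2) 0 := by fun_prop
  have c2 : ContinuousAt (fun t : ℝ => t * B1) 0 := by fun_prop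
  have c3 : ContinuousAt (fun t : ℝ => t * χ) 0 := by fun_prop
  have c4 : ContinuousAt (fun t : ℝ => t * (|B| * B1 ^ 2)) 0 := by fun_prop
  filter_upwards [self_mem_nhdsWithin, nhdsWithin_le_nhds m, nhdsWithin_le_nhds
    (c1.eventually (by simpa using m)), nhdsWithin_le_nhds (c2.eventually (ge_mem_nhds (a := δ)
      (by simpa using δ0))), nhdsWithin_le_nhds (c3.eventually (ge_mem_nhds (a := 1) (by simp))),
    nhdsWithin_le_nhds (c4.eventually (ge_mem_nhds (a := c) (by simpa using hc)))]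
    with t t0 m1 m2 t1 t2 t3 x hx
  refine dec_of D.met m1 m2 x ⟨0, by omega⟩ fun e he => ?_
  have t0 : 0 < t := t0
  have r1 := one_le_rr (px x)
  have r0 := rr_pos (px x)
  have he' : ∑ a, ∑ b, (jM D.g D.K x).1 a b * e a * e b = 1 := jM_fst D.g D.K x ▸ he
  have g := Gt_der D.met hK V.sh V.sk x he
  have nb : ‖((0, jM h k x, 0) : C.Pv n)‖ = ‖jM h k x‖ := by simp [Prod.norm_def]
  have j1 : ‖jM h k x‖ ≤ B1 := (le_mul_of_one_le_left (norm_nonneg _)
    (Real.one_le_rpow r1 (by linarith))).trans (b1 x)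
  have T := tay (jM D.g D.K x, 0, e) ⟨⟨jM_fst D.g D.K x ▸ h2 x, rfl, he'⟩,
    mem_closedBall_zero_iff.2 (max_le_max (by simpa using b3 x) (max_le_max (by simp)
      (b2 _ (h2 x) e he)))⟩ (t • (0, jM h k x, 0)) (by
        rw [norm_smul, nb, Real.norm_of_nonneg t0.le]
        exact (mul_le_mul_of_nonneg_left j1 t0.le).trans t1)
  have G := fun {t} ht => Gv_eq D.met.sm D.smK V.sh.sm V.sk.sm (t := t) ht x e
  have G0 := G m.self_of_nhds
  rw [zero_smul, add_zero, g.1] at G0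
  rw [G m1, G0, map_smul, (C.der_line ((C.cd_Gv (jM_fst D.g D.K x ▸ h1 _ (h2 x))
    he').differentiableAt (by simp)) _).unique ((g.2.const_mul _).congr_of_eventuallyEq
      (m.mono fun t ht => G ht)), norm_smul, nb, Real.norm_of_nonneg t0.le, smul_eq_mul] at T
  have e0 : 0 ≤ en D.g D.K x e := by
    have a := D.met.up_cs x (fun j => mom D.g D.K j x) fun j => ∑ k, D.g x j k * e k
    have b : ∀ b : Fin n → ℝ, ∑ i, ∑ j, up D.g i j x * b i * ∑ k, D.g x j k * e k =
        ∑ i, b i * e i := fun b => Finset.sum_congr rfl fun i _ => by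
      rw [← D.met.up_g_mul x i e, Finset.mul_sum]
      exact Finset.sum_congr rfl fun j _ => by ring
    have d : ∑ i, (∑ k, D.g x i k * e k) * e i = 1 := he ▸ Finset.sum_congr rfl fun i _ => by
      simp only [Finset.sum_mul, mul_right_comm]
    rw [b, b, d, mul_one] at a
    exact neg_le_iff_add_nonneg.1 ((neg_le_abs _).trans ((Real.abs_le_sqrt a).trans (dec x hx)))
  have w : rr (px x) ^ ((n : ℝ) + ε) * ‖jM h k x‖ ^ 2 ≤ rr (px x) ^ 2 * B1 ^ 2 := by
    have : rr (px x) ^ ((n : ℝ) + ε) ≤ rr (px x) ^ 2 * (rr (px x) ^ ((n : ℝ) - 2)) ^ 2 := by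
      rw [← Real.rpow_two, ← Real.rpow_two, ← Real.rpow_mul r0.le, ← Real.rpow_add r0]
      exact Real.rpow_le_rpow_of_exponent_le r1 (by linarith)
    refine (mul_le_mul_of_nonneg_right this (sq_nonneg _)).trans ?_
    rw [mul_assoc, ← mul_pow]
    gcongr
    exact b1 x
  have H := H x hx e he
  rw [wt_rr] at H
  have wp : 0 < rr (px x) ^ ((n : ℝ) + ε) := by positivity
  refine nonneg_of_mul_nonneg_right (b := Gt D.g D.K h k x e t) ?_
    (show 0 < rr (px x) ^ ((n : ℝ) + ε) * rr (px x) ^ 2 by positivity)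
  have T1 := mul_le_mul_of_nonneg_left ((neg_le_abs _).trans (T.trans
    (mul_le_mul_of_nonneg_right (le_abs_self B) (sq_nonneg _)))) wp.le
  have T2 := mul_le_mul_of_nonneg_left w (show 0 ≤ |B| * t ^ 2 by positivity)
  have T3 := mul_le_mul_of_nonneg_left H (show 0 ≤ t * rr (px x) ^ 2 by positivity)
  have T4 := mul_le_mul_of_nonneg_left t3 (show 0 ≤ t * rr (px x) ^ 2 by positivity)
  have T5 := mul_le_mul_of_nonneg_left t2
    (show 0 ≤ rr (px x) ^ ((n : ℝ) + ε) * rr (px x) ^ 2 * en D.g D.K x e by positivity)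
  nlinarith

end Vale.Agent.P366K
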