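import Vale.Agent.P366K.Lin

/-!
# P366K: the constraints as functions of the jets
-/

set_option linter.all false

open Filter Topology Matrix
open scoped ContDiff
open Vale.Agent.P366.Stmt Vale.Agent.P366Z Vale.Agent.P366XR
open Vale.Agent.P366Y.C (rc Sy)

noncomputable section

namespace Vale.Agent.P366K.C

abbrev T2 (n : ℕ) := Fin n → Fin n → ℝ
abbrev T3 (n : ℕ) := Fin n → T2 n
abbrev Jt (n : ℕ) := T2 n × T3 n × (Fin n → T3 n) × T2 n × T3 n
abbrev Jf (n : ℕ) := (Fin n → ℝ) × T2 n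

variable {n : ℕ} {g K h k : Field n} {y : E n} {F : E n → ℝ}

/-- the jets of the data and of a function -/
def jet (g K : Field n) (y : E n) : Jt n := (g y, fun a i j => pd a (fun z => g z i j) y,
  fun b a i j => pd b (pd a fun z => g z i j) y, K y, fun a i j => pd a (fun z => K z i j) y)
def jef (F : E n → ℝ) (y : E n) : Jf n := (fun i => pd i F y, fun i j => pd i (pd j F) y)

def jU (j : Jt n) (i k : Fin n) : ℝ := (of j.1)⁻¹ i k
def jL (A : T3 n) (m i l : Fin n) : ℝ := A i l m + A l i m - A m i l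
def jC (j : Jt n) (k i l : Fin n) : ℝ := (∑ m, jU j k m * jL j.2.1 m i l) / 2
def jdU (j : Jt n) (a i k : Fin n) : ℝ := -∑ b, ∑ c, jU j i b * j.2.1 a b c * jU j c k
def jdC (j : Jt n) (a k i l : Fin n) : ℝ :=
  (∑ m, (jdU j a k m * jL j.2.1 m i l + jU j k m * jL (j.2.2.1 a) m i l)) / 2
def jS (j : Jt n) : ℝ := ∑ i, ∑ l, jU j i l * ∑ k, (jdC j k k i l - jdC j l k i k +
  ∑ m, (jC j k k m * jC j m i l - jC j k l m * jC j m i k))
def jT (j : Jt n) (A : T2 n) : ℝ := ∑ i, ∑ l, jU j i l * A i l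
def jN (j : Jt n) : ℝ := ∑ i, ∑ l, ∑ a, ∑ b, jU j i a * jU j l b * j.2.2.2.1 i l * j.2.2.2.1 a b
def jmu (j : Jt n) : ℝ := (jS j + jT j j.2.2.2.1 ^ 2 - jN j) / 2
def jdT (j : Jt n) (a : Fin n) : ℝ :=
  ∑ i, ∑ l, (jdU j a i l * j.2.2.2.1 i l + jU j i l * j.2.2.2.2 a i l)
def jP (j : Jt n) (i l : Fin n) : ℝ := j.2.2.2.1 i l - jT j j.2.2.2.1 * j.1 i l
def jmo (j : Jt n) (b : Fin n) : ℝ := ∑ i, ∑ k, jU j i k *
  (j.2.2.2.2 k i b - (jdT j k * j.1 i b + jT j j.2.2.2.1 * j.2.1 k i b) -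
    ∑ l, (jC j l k i * jP j l b + jC j l k b * jP j i l))
def jQ (j : Jt n) (f : Jf n) : ℝ := ∑ i, ∑ l, jU j i l * f.1 i * f.1 l
def jn (j : Jt n) (f : Jf n) (i : Fin n) : ℝ := (∑ l, jU j i l * f.1 l) / √(jQ j f)
def jtS (j : Jt n) (f : Jf n) (A : T2 n) : ℝ := jT j A - ∑ i, ∑ l, A i l * jn j f i * jn j f l
def jth (j : Jt n) (f : Jf n) : ℝ :=
  jtS j f (fun i l => f.2 i l - ∑ k, jC j k i l * f.1 k) / √(jQ j f) + jtS j f j.2.2.2.1

theorem th_jet (g K : Field n) (F : E n → ℝ) (y : E n) :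
    thetaPlus g K F y = jth (jet g K y) (jef F y) := rfl

theorem pd_up_loc (hg' : Sm g) (hd : (mat g y).det ≠ 0)
    (a i k : Fin n) : DifferentiableAt ℝ (up g i k) y ∧ pd a (up g i k) y = jdU (jet g K y) a i k := by
  have hg := hg'.df y
  have d : ∀ i k, DifferentiableAt ℝ (up g i k) y := fun i k =>
    (cd_inv (A := mat g) (fun i j => (hg' i j).contDiffAt) hd i k).differentiableAt (by simp)
  refine ⟨d i k, ?_⟩
  have c : ContinuousAt (fun z => (mat g z).det) y :=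
    (Continuous.matrix_det continuous_id).continuousAt.comp
      (continuousAt_pi.2 fun i => continuousAt_pi.2 fun j => (hg i j).continuousAt)
  have ev : ∀ᶠ z in 𝓝 y, (mat g z)⁻¹ * mat g z = 1 := (c.eventually_ne hd).mono fun t ht =>
    nonsing_inv_mul _ (isUnit_iff_ne_zero.2 ht)
  have e := pM_mul (P := fun z => (mat g z)⁻¹) (Q := mat g) d hg a
  have e0 : pM (fun z => (mat g z)⁻¹ * mat g z) a y = 0 := Matrix.ext fun b c =>
    (pd_congr (ev.mono fun z hz => congrFun (congrFun hz b) c) a).trans (pd_const _ _ _)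
  have e2 : pM (fun z => (mat g z)⁻¹) a y = -((mat g y)⁻¹ * pM (mat g) a y * (mat g y)⁻¹) := by
    rw [← Matrix.neg_mul, ← eq_neg_of_add_eq_zero_left (e.symm.trans e0), Matrix.mul_assoc,
      mul_nonsing_inv _ (isUnit_iff_ne_zero.2 hd), Matrix.mul_one]
  refine (congrFun (congrFun e2 i) k).trans ?_
  simp only [Matrix.neg_apply, mul_apply, Finset.sum_mul]
  rw [Finset.sum_comm]
  rfl

theorem con_jet (hg : Sm g) (hK : Sm K) (hd : (mat g y).det ≠ 0) :
    mu g K y = jmu (jet g K y) ∧ ∀ b, mom g K b y = jmo (jet g K y) b := by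
  have u := pd_up_loc (K := K) hg hd
  have d := fun a i j => ((hg i j).pd a).diff y
  have e1 : ∀ a k i l, pd a (chr g k i l) y = jdC (jet g K y) a k i l := fun a k i l => by
    have s := fun m => ((d i l m).fun_add (d l i m)).fun_sub (d m i l)
    unfold chr
    simp only [div_eq_mul_inv, pd_mul_const]
    rw [pd_sum _ fun m _ => (u a k m).1.fun_mul (s m)]
    simp only [pd_mul (u a k _).1 (s _), pd_sub ((d i l _).fun_add (d l i _)) (d _ i l),
      pd_add (d i l _) (d l i _), (u a k _).2]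
    rfl
  have s := fun a i l => (u a i l).1.fun_mul ((hK i l).diff y)
  have e2 : ∀ a, pd a (tr g K) y = jdT (jet g K y) a := fun a => by
    unfold tr
    rw [pd_sum _ fun i _ => DifferentiableAt.fun_sum fun l _ => s a i l]
    simp only [pd_sum _ fun l _ => s a _ l, pd_mul (u a _ _).1 ((hK _ _).diff y), (u a _ _).2]
    rfl
  refine ⟨by simp only [mu, scal, e1]; rfl, fun b => ?_⟩
  have t : DifferentiableAt ℝ (tr g K) y :=
    DifferentiableAt.fun_sum fun i _ => DifferentiableAt.fun_sum fun l _ => s b i l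
  simp only [mom, momT, pd_sub ((hK _ _).diff y) (t.fun_mul ((hg _ _).diff y)),
    pd_mul t ((hg _ _).diff y), e2]
  rfl

theorem jet_lin (hg : Sm g) (hK : Sm K) (hh : Sm h) (hk : Sm k) (a b : ℝ) (y : E n) :
    jet (fun z i j => a * g z i j + b * h z i j) (fun z i j => a * K z i j + b * k z i j) y =
      a • jet g K y + b • jet h k y := by
  have e : ∀ {u v : E n → ℝ}, Smooth u → Smooth v → ∀ i,
      pd i (fun z => a * u z + b * v z) = fun z => a * pd i u z + b * pd i v z := fun hu hv i =>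
    funext fun z => by
      rw [pd_add ((hu.diff z).const_mul a) ((hv.diff z).const_mul b), pd_const_mul, pd_const_mul]
  simp only [jet, e (hg _ _) (hh _ _), e (hK _ _) (hk _ _), e ((hg _ _).pd _) ((hh _ _).pd _)]
  rfl

theorem jet_fam (hg : Sm g) (hK : Sm K) (hh : Sm h) (hk : Sm k) (t : ℝ) (y : E n) :
    jet (fun z i j => g z i j + t * h z i j) (fun z i j => K z i j + t * k z i j) y =
      jet g K y + t • jet h k y := by
  simpa only [one_mul, one_smul] using jet_lin hg hK hh hk 1 t y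

theorem cd_jet (hg : Sm g) (hK : Sm K) : ContDiff ℝ ∞ (jet g K) := by
  have p2 : ∀ {A : E n → T2 n}, (∀ i j, Smooth fun z => A z i j) → ContDiff ℝ ∞ A := fun h =>
    contDiff_pi.2 fun i => contDiff_pi.2 (h i)
  exact (p2 hg).prodMk ((contDiff_pi.2 fun a => p2 fun i j => (hg i j).pd a).prodMk
    ((contDiff_pi.2 fun b => contDiff_pi.2 fun a => p2 fun i j => ((hg i j).pd a).pd b).prodMk
      ((p2 hK).prodMk (contDiff_pi.2 fun a => p2 fun i j => (hK i j).pd a))))

theorem cd_jef (hF : Smooth F) : ContDiff ℝ ∞ (jef F) :=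
  (contDiff_pi.2 fun i => hF.pd i).prodMk
    (contDiff_pi.2 fun i => contDiff_pi.2 fun j => (hF.pd j).pd i)

variable {j : Jt n} {f : Jf n}

theorem cd_jU (hd : (of j.1).det ≠ 0) (i k : Fin n) : ContDiffAt ℝ ∞ (fun j => jU j i k) j :=
  cd_inv (A := fun j : Jt n => of j.1) (fun a b => show ContDiffAt ℝ ∞ (fun j : Jt n => j.1 a b) j by
    fun_prop) hd i k

theorem cd_jmu (hd : (of j.1).det ≠ 0) : ContDiffAt ℝ ∞ jmu j := by
  have := cd_jU hd
  unfold jmu jS jT jN jdC jC jdU jL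
  fun_prop

theorem cd_jmo (hd : (of j.1).det ≠ 0) (b : Fin n) : ContDiffAt ℝ ∞ (fun j => jmo j b) j := by
  have := cd_jU hd
  unfold jmo jP jdT jT jC jdU jL
  fun_prop

theorem cd_jth (hd : (of j.1).det ≠ 0) (hq : 0 < jQ j f) :
    ContDiffAt ℝ ∞ (fun p : Jt n × Jf n => jth p.1 p.2) (j, f) := by
  have hU : ∀ i k, ContDiffAt ℝ ∞ (fun p : Jt n × Jf n => jU p.1 i k) (j, f) := fun i k =>
    (cd_jU hd i k).comp (j, f) contDiffAt_fst
  have h1 : ∀ i, ContDiffAt ℝ ∞ (fun p : Jt n × Jf n => p.2.1 i) (j, f) := fun i => by fun_prop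
  have hQ : ContDiffAt ℝ ∞ (fun p : Jt n × Jf n => √(jQ p.1 p.2)) (j, f) :=
    ContDiffAt.sqrt (f := fun p : Jt n × Jf n => jQ p.1 p.2) (ContDiffAt.sum fun i _ =>
      ContDiffAt.sum fun l _ => ((hU i l).mul (h1 i)).mul (h1 l)) hq.ne'
  have q0 := (Real.sqrt_pos.2 hq).ne'
  have hn : ∀ i, ContDiffAt ℝ ∞ (fun p : Jt n × Jf n => jn p.1 p.2 i) (j, f) := fun i =>
    (ContDiffAt.sum fun l _ => (hU i l).mul (h1 l)).div hQ q0
  have hS : ∀ {A : Jt n × Jf n → T2 n}, (∀ i l, ContDiffAt ℝ ∞ (fun p => A p i l) (j, f)) →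
      ContDiffAt ℝ ∞ (fun p : Jt n × Jf n => jtS p.1 p.2 (A p)) (j, f) := fun hA =>
    (ContDiffAt.sum fun i _ => ContDiffAt.sum fun l _ => (hU i l).mul (hA i l)).sub
      (ContDiffAt.sum fun i _ => ContDiffAt.sum fun l _ => ((hA i l).mul (hn i)).mul (hn l))
  have hL : ∀ m i l, ContDiffAt ℝ ∞ (fun p : Jt n × Jf n => jL p.1.2.1 m i l) (j, f) :=
    fun m i l => by unfold jL; fun_prop
  have hC : ∀ k i l, ContDiffAt ℝ ∞ (fun p : Jt n × Jf n => jC p.1 k i l) (j, f) := fun k i l =>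
    (ContDiffAt.sum fun m _ => (hU k m).mul (hL m i l)).div_const 2
  exact ((hS fun i l => ContDiffAt.sub (by fun_prop)
    (ContDiffAt.sum fun k _ => (hC k i l).mul (h1 k))).div hQ q0).add (hS fun i l => by fun_prop)

/-- the scaling of the jets -/
def sc (r : ℝ) : Jt n →L[ℝ] Jt n := (ContinuousLinearMap.id ℝ _).prodMap
  ((r • ContinuousLinearMap.id ℝ _).prodMap ((r ^ 2 • ContinuousLinearMap.id ℝ _).prodMap
    ((r • ContinuousLinearMap.id ℝ _).prodMap (r ^ 2 • ContinuousLinearMap.id ℝ _))))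

theorem sc_con (r : ℝ) (j : Jt n) :
    jmu (sc r j) = r ^ 2 * jmu j ∧ ∀ b, jmo (sc r j) b = r ^ 2 * jmo j b := by
  have e0 : (sc r j).1 = j.1 := rfl
  have eU : jU (sc r j) = jU j := rfl
  have e1 : ∀ a b c, (sc r j).2.1 a b c = r * j.2.1 a b c := fun _ _ _ => rfl
  have e2 : ∀ a b c d, (sc r j).2.2.1 a b c d = r ^ 2 * j.2.2.1 a b c d := fun _ _ _ _ => rfl
  have e3 : ∀ a b, (sc r j).2.2.2.1 a b = r * j.2.2.2.1 a b := fun _ _ => rfl
  have e4 : ∀ a b c, (sc r j).2.2.2.2 a b c = r ^ 2 * j.2.2.2.2 a b c := fun _ _ _ => rfl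
  have c : ∀ {c : ℝ} {u v : Fin n → ℝ}, (∀ i, u i = c * v i) → ∑ i, u i = c * ∑ i, v i :=
    fun h => by simp only [h, Finset.mul_sum]
  have eC : ∀ k i l, jC (sc r j) k i l = r * jC j k i l := fun k i l => by
    rw [jC, jC, ← mul_div_assoc]
    exact congrArg (· / 2) (c fun m => by simp only [jL, eU, e1]; ring)
  have edU : ∀ a i k, jdU (sc r j) a i k = r * jdU j a i k := fun a i k => by
    rw [jdU, jdU, mul_neg]
    exact congrArg (-·) (c fun _ => c fun _ => by simp only [eU, e1]; ring)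
  have edC : ∀ a k i l, jdC (sc r j) a k i l = r ^ 2 * jdC j a k i l := fun a k i l => by
    rw [jdC, jdC, ← mul_div_assoc]
    exact congrArg (· / 2) (c fun m => by simp only [jL, eU, e1, e2, edU]; ring)
  have eT : jT (sc r j) (sc r j).2.2.2.1 = r * jT j j.2.2.2.1 :=
    c fun _ => c fun _ => by simp only [eU, e3]; ring
  have eN : jN (sc r j) = r ^ 2 * jN j :=
    c fun _ => c fun _ => c fun _ => c fun _ => by simp only [eU, e3]; ring
  have eS : jS (sc r j) = r ^ 2 * jS j := c fun i => c fun l => by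
    rw [eU, mul_left_comm]
    refine congrArg _ (c fun k => ?_)
    rw [edC, edC, mul_add, mul_sub]
    exact congrArg _ (c fun m => by simp only [eC]; ring)
  have edT : ∀ a, jdT (sc r j) a = r ^ 2 * jdT j a := fun a =>
    c fun _ => c fun _ => by simp only [eU, e3, e4, edU]; ring
  have eP : ∀ i l, jP (sc r j) i l = r * jP j i l := fun i l => by
    rw [jP, jP, eT, e3, e0]
    ring
  refine ⟨by rw [jmu, jmu, eS, eT, eN]; ring, fun b => c fun i => c fun k => ?_⟩
  rw [eU, eT, edT, e4, e1, e0, c (c := r ^ 2)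
    (v := fun l => jC j l k i * jP j l b + jC j l k b * jP j i l) fun m => by
      simp only [eC, eP]; ring]
  ring

end Vale.Agent.P366K.C
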