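import Vale.Agent.P366K.Cv

/-!
# P366K: derivatives of smooth families of functions
-/

set_option linter.all false

open Filter Topology Matrix
open scoped ContDiff
open Vale.Agent.P366.Stmt Vale.Agent.P366Z Vale.Agent.P366XR
open Vale.Agent.P366Y.C (rc Sy)

noncomputable section

namespace Vale.Agent.P366K.C

section Inv

variable {V : Type} [NormedAddCommGroup V] [NormedSpace ℝ V] {m : ℕ} {x : V}
  {A : V → Matrix (Fin m) (Fin m) ℝ} {s : WithTop ℕ∞}

theorem cd_det (hA : ∀ i j, ContDiffAt ℝ s (fun y => A y i j) x) :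
    ContDiffAt ℝ s (fun y => (A y).det) x := by
  simp only [Matrix.det_apply']
  exact ContDiffAt.sum fun σ _ => contDiffAt_const.mul (contDiffAt_prod fun i _ => hA _ _)

theorem cd_inv (hA : ∀ i j, ContDiffAt ℝ s (fun y => A y i j) x) (hd : (A x).det ≠ 0)
    (i j : Fin m) : ContDiffAt ℝ s (fun y => (A y)⁻¹ i j) x := by
  have h1 : (fun y => (A y)⁻¹ i j) =
      fun y => (A y).det⁻¹ * ((A y).updateRow j (Pi.single i 1)).det := by
    funext y
    rw [Matrix.inv_def, Matrix.smul_apply, smul_eq_mul, Ring.inverse_eq_inv',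
      Matrix.adjugate_apply]
  rw [h1]
  refine ((cd_det hA).inv hd).mul (cd_det fun a b => ?_)
  by_cases ha : a = j
  · subst ha
    simp only [Matrix.updateRow_self]
    exact contDiffAt_const
  · simp only [Matrix.updateRow_ne ha]
    exact hA a b

end Inv

variable {n : ℕ}

/-- the family `f` is smooth near `t = 0`, with value `a` and derivative `b` -/
structure Dv (f : ℝ → E n → ℝ) (a b : E n → ℝ) : Prop where
  js : ∀ y, ContDiffAt ℝ ∞ (fun p : ℝ × E n => f p.1 p.2) (0, y)
  zero : ∀ y, f 0 y = a y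
  der : ∀ y, HasDerivAt (fun t => f t y) (b y) 0

variable {f f' : ℝ → E n → ℝ} {a b a' b' : E n → ℝ}

theorem Dv.congr (h : Dv f a b) (ea : ∀ y, a y = a' y) (eb : ∀ y, b y = b' y) : Dv f a' b' :=
  ⟨h.js, fun y => ea y ▸ h.zero y, fun y => eb y ▸ h.der y⟩

theorem Dv.add (h : Dv f a b) (h' : Dv f' a' b') :
    Dv (fun t y => f t y + f' t y) (fun y => a y + a' y) fun y => b y + b' y :=
  ⟨fun y => (h.js y).add (h'.js y), fun y => by rw [h.zero, h'.zero],
    fun y => (h.der y).add (h'.der y)⟩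

theorem Dv.sub (h : Dv f a b) (h' : Dv f' a' b') :
    Dv (fun t y => f t y - f' t y) (fun y => a y - a' y) fun y => b y - b' y :=
  ⟨fun y => (h.js y).sub (h'.js y), fun y => by rw [h.zero, h'.zero],
    fun y => (h.der y).sub (h'.der y)⟩

theorem Dv.mul (h : Dv f a b) (h' : Dv f' a' b') :
    Dv (fun t y => f t y * f' t y) (fun y => a y * a' y) fun y => b y * a' y + a y * b' y :=
  ⟨fun y => (h.js y).mul (h'.js y), fun y => by rw [h.zero, h'.zero],
    fun y => by simpa only [h.zero, h'.zero] using (h.der y).fun_mul (h'.der y)⟩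

theorem Dv.div (h : Dv f a b) (c : ℝ) :
    Dv (fun t y => f t y / c) (fun y => a y / c) fun y => b y / c :=
  ⟨fun y => (h.js y).div_const c, fun y => by rw [h.zero], fun y => (h.der y).div_const c⟩

theorem Dv.sum {ι : Type} [Fintype ι] {f : ι → ℝ → E n → ℝ} {a b : ι → E n → ℝ}
    (h : ∀ i, Dv (f i) (a i) (b i)) :
    Dv (fun t y => ∑ i, f i t y) (fun y => ∑ i, a i y) fun y => ∑ i, b i y :=
  ⟨fun y => ContDiffAt.sum fun i _ => (h i).js y, fun y => by simp only [(h _).zero],
    fun y => HasDerivAt.fun_sum fun i _ => (h i).der y⟩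

theorem pd_fam {F : ℝ × E n → ℝ} {p : ℝ × E n} (h : DifferentiableAt ℝ F p) (i : Fin n) :
    pd i (fun y => F (p.1, y)) p.2 = fderiv ℝ F p (0, EuclideanSpace.single i 1) := by
  have := HasFDerivAt.comp (f := fun y => (p.1, y)) p.2 h.hasFDerivAt
    (hasFDerivAt_prodMk_right p.1 p.2)
  exact pd_of_hasFDerivAt this i

theorem der_fam {F : ℝ × E n → ℝ} {p : ℝ × E n} (h : DifferentiableAt ℝ F p) :
    HasDerivAt (fun t => F (t, p.2)) (fderiv ℝ F p (1, 0)) p.1 :=
  h.hasFDerivAt.comp_hasDerivAt p.1 ((hasDerivAt_id p.1).prodMk (hasDerivAt_const p.1 p.2))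

theorem Dv.pd (h : Dv f a b) (i : Fin n) : Dv (fun t => pd i (f t)) (pd i a) (pd i b) := by
  set F : ℝ × E n → ℝ := fun p => f p.1 p.2
  have ev : ∀ y, (fun p : ℝ × E n => P366.Stmt.pd i (f p.1) p.2) =ᶠ[𝓝 (0, y)]
      fun p => fderiv ℝ F p (0, EuclideanSpace.single i 1) := fun y =>
    (((h.js y).of_le (m := 1) (by simp)).eventually (by simp)).mono fun p hp =>
      pd_fam (hp.differentiableAt one_ne_zero) i
  have hd : ∀ y v, ContDiffAt ℝ ∞ (fun p => fderiv ℝ F p v) (0, y) := fun y v =>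
    ((h.js y).fderiv_right (m := ∞) le_rfl).clm_apply contDiffAt_const
  have h2 : ∀ y v w, fderiv ℝ (fun p => fderiv ℝ F p v) (0, y) w =
      fderiv ℝ (fderiv ℝ F) (0, y) w v := fun y v w => by
    rw [fderiv_clm_apply (((h.js y).fderiv_right (m := 1) (by decide)).differentiableAt
      one_ne_zero) (differentiableAt_const _)]
    simp [F]
  refine ⟨fun y => (hd y _).congr_of_eventuallyEq (ev y), fun y => ?_, fun y => ?_⟩
  · rw [funext h.zero]
  · have e1 : b = fun z => fderiv ℝ F (0, z) (1, 0) := funext fun z =>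
      (h.der z).unique (der_fam (p := (0, z)) ((h.js z).differentiableAt (by simp)))
    have d := fun v => (hd y v).differentiableAt (by simp)
    rw [e1, pd_fam (F := fun p => fderiv ℝ F p (1, 0)) (p := (0, y)) (d _), h2,
      ((h.js y).isSymmSndFDerivAt (by simp; decide)).eq, ← h2]
    exact (der_fam (p := (0, y)) (d _)).congr_of_eventuallyEq
      ((Continuous.prodMk_left y).continuousAt.eventually (ev y))

theorem Fam.dv {G : ℝ → Field n} {g h : Field n} (H : Fam G g h) (i j : Fin n) :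
    Dv (fun t y => G t y i j) (fun y => g y i j) fun y => h y i j :=
  ⟨fun _ => (H.sm i j).contDiffAt, fun y => by rw [H.zero], fun y => H.der y i j⟩

theorem Fam.up {G : ℝ → Field n} {g h : Field n} (H : Fam G g h) (hg : Met g) (i j : Fin n) :
    Dv (fun t => up (G t) i j) (up g i j) fun y =>
      -((mat g y)⁻¹ * mat h y * (mat g y)⁻¹) i j := by
  have js : ∀ y i j, ContDiffAt ℝ ∞ (fun p : ℝ × E n => P366.Stmt.up (G p.1) i j p.2) (0, y) :=
    fun y => cd_inv (A := fun p : ℝ × E n => mat (G p.1) p.2) (fun i j => (H.sm i j).contDiffAt)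
      (by simpa only [H.zero] using (hg.det_pos y).ne')
  refine ⟨fun y => js y i j, fun y => by rw [H.zero], fun y => ?_⟩
  have d : ∀ i j, HasDerivAt (fun t => P366.Stmt.up (G t) i j y) _ 0 := fun i j =>
    der_fam (p := (0, y)) ((js y i j).differentiableAt (by simp))
  set U : Mx n := of fun i j =>
    fderiv ℝ (fun p : ℝ × E n => P366.Stmt.up (G p.1) i j p.2) (0, y) (1, 0)
  have c : ContinuousAt (fun t => (mat (G t) y).det) 0 :=
    (hasDerivAt_det (A := fun t => mat (G t) y) (A' := mat h y) (H.der y)).continuousAt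
  have ev : ∀ᶠ t in 𝓝 (0 : ℝ), (mat (G t) y)⁻¹ * mat (G t) y = 1 :=
    (c.eventually_ne (by simpa only [H.zero] using (hg.det_pos y).ne')).mono fun t ht =>
      nonsing_inv_mul _ (isUnit_iff_ne_zero.2 ht)
  have e : U * mat g y + (mat g y)⁻¹ * mat h y = 0 := by
    ext a c
    have h1 := HasDerivAt.fun_sum (u := Finset.univ) fun k _ => (d a k).fun_mul (H.der y k c)
    have h2 : HasDerivAt (fun t => ∑ k, P366.Stmt.up (G t) a k y * G t y k c) 0 0 :=
      (hasDerivAt_const 0 ((1 : Mx n) a c)).congr_of_eventuallyEq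
        (ev.mono fun t ht => congrFun (congrFun ht a) c)
    have := h1.unique h2
    simp only [H.zero, Finset.sum_add_distrib] at this
    exact this
  have e2 : U = -((mat g y)⁻¹ * mat h y * (mat g y)⁻¹) := by
    rw [← Matrix.neg_mul, ← eq_neg_of_add_eq_zero_left e, Matrix.mul_assoc, mul_inv hg,
      Matrix.mul_one]
  exact (d i j).congr_deriv (congrFun (congrFun e2 i) j)

end Vale.Agent.P366K.C
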